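import Mathlib
import Vale.Agent.P211.Analytic.Facade
import Vale.Agent.P211.Analytic.Level

/-!
P211, module F (note 1326): the divergence of six fields built from two functions, their gradients
and Hessians, as a quadratic form of a jet, and the format of a pointwise certificate.
-/

open Matrix
open scoped ContDiff

namespace Vale.Agent.P211.Analytic

noncomputable section

/-- The five scalars on which the coefficients depend. -/
def pt (s t : ℝ) (a b : Fin 4 → ℝ) : Fin 5 → ℝ := ![s, t, a ⬝ᵥ a, b ⬝ᵥ b, a ⬝ᵥ b]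

/-- The differential of a coefficient along a jet, homogeneous in the jet of second order. -/
def diffJet (Φ : (Fin 5 → ℝ) → ℝ) (c s t : ℝ) (a b : Fin 4 → ℝ)
    (H K : Matrix (Fin 4) (Fin 4) ℝ) : Fin 4 → ℝ :=
  part Φ 0 (pt s t a b) • (c • a) + part Φ 1 (pt s t a b) • (c • b) +
    part Φ 2 (pt s t a b) • ((2 : ℝ) • (H *ᵥ a)) + part Φ 3 (pt s t a b) • ((2 : ℝ) • (K *ᵥ b)) +
    part Φ 4 (pt s t a b) • (H *ᵥ b + K *ᵥ a)

/-- The divergence of one field: its scalar part `D` and its vector `v`. -/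
def divTerm (Φ : (Fin 5 → ℝ) → ℝ) (c s t : ℝ) (a b : Fin 4 → ℝ)
    (H K : Matrix (Fin 4) (Fin 4) ℝ) (D : ℝ) (v : Fin 4 → ℝ) : ℝ :=
  Φ (pt s t a b) * D + diffJet Φ c s t a b H K ⬝ᵥ v

/-- The scalar parts of the divergences of the six fields. -/
def scalarPart (c : ℝ) (a b : Fin 4 → ℝ) (H K : Matrix (Fin 4) (Fin 4) ℝ) : Fin 6 → ℝ :=
  ![c * H.trace, c * K.trace,
    mdot H H - H.trace * H.trace + 3 * c ^ 2 * (a ⬝ᵥ a),
    mdot K K - K.trace * K.trace + 3 * c ^ 2 * (b ⬝ᵥ b),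
    mdot H K - H.trace * K.trace + 3 * c ^ 2 * (a ⬝ᵥ b),
    mdot H K - H.trace * K.trace + 3 * c ^ 2 * (a ⬝ᵥ b)]

/-- The vectors of the six fields. -/
def vecPart (c : ℝ) (a b : Fin 4 → ℝ) (H K : Matrix (Fin 4) (Fin 4) ℝ) : Fin 6 → Fin 4 → ℝ :=
  ![c • a, c • b, H *ᵥ a - H.trace • a, K *ᵥ b - K.trace • b, H *ᵥ b - H.trace • b,
    K *ᵥ a - K.trace • a]

/-- The divergence of the six fields with coefficients `P`, on a jet. -/
def divJet (P : Fin 6 → (Fin 5 → ℝ) → ℝ) (c s t : ℝ) (a b : Fin 4 → ℝ)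
    (H K : Matrix (Fin 4) (Fin 4) ℝ) : ℝ :=
  ∑ i, divTerm (P i) c s t a b H K (scalarPart c a b H K i) (vecPart c a b H K i)

/-- The Laplacian of the constraint on a jet, with the penalty coefficient. -/
def levelJet (c s t : ℝ) (a b : Fin 4 → ℝ) (H K : Matrix (Fin 4) (Fin 4) ℝ) : ℝ :=
  c * (3 * eC s * H.trace + 3 * eC t * K.trace + 3 * c * (eC₁ s * (a ⬝ᵥ a) + eC₁ t * (b ⬝ᵥ b)))

lemma mdot_smul_smul (r : ℝ) (H K : Matrix (Fin 4) (Fin 4) ℝ) :
    mdot (r • H) (r • K) = r ^ 2 * mdot H K := by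
  simp only [mdot, Matrix.smul_apply, smul_eq_mul, Finset.mul_sum]
  exact Finset.sum_congr rfl fun i _ => Finset.sum_congr rfl fun j _ => by ring

/-- The divergence is quadratic in the jet of second order. -/
lemma divJet_smul (P : Fin 6 → (Fin 5 → ℝ) → ℝ) (r c s t : ℝ) (a b : Fin 4 → ℝ)
    (H K : Matrix (Fin 4) (Fin 4) ℝ) :
    divJet P (r * c) s t a b (r • H) (r • K) = r ^ 2 * divJet P c s t a b H K := by
  have hd : ∀ Φ, diffJet Φ (r * c) s t a b (r • H) (r • K) = r • diffJet Φ c s t a b H K := by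
    intro Φ
    simp only [diffJet, smul_mulVec, smul_add, smul_smul]
    module
  have hs : ∀ i, scalarPart (r * c) a b (r • H) (r • K) i = r ^ 2 * scalarPart c a b H K i := by
    intro i
    fin_cases i <;>
      simp [scalarPart, Matrix.trace_smul, mdot_smul_smul] <;> ring
  have hv : ∀ i, vecPart (r * c) a b (r • H) (r • K) i = r • vecPart c a b H K i := by
    intro i
    fin_cases i <;>
      simp [vecPart, smul_mulVec, Matrix.trace_smul, smul_sub, smul_smul]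
  rw [divJet, divJet, Finset.mul_sum]
  refine Finset.sum_congr rfl fun i _ => ?_
  simp only [divTerm, hd, hs, hv, smul_dotProduct, dotProduct_smul, smul_eq_mul]
  ring

lemma levelJet_smul (r c s t : ℝ) (a b : Fin 4 → ℝ) (H K : Matrix (Fin 4) (Fin 4) ℝ) :
    levelJet (r * c) s t a b (r • H) (r • K) = r ^ 2 * levelJet c s t a b H K := by
  simp only [levelJet, Matrix.trace_smul, smul_eq_mul]
  ring

/-- The squared size of a jet of second order. -/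
def jetSize (c : ℝ) (H K : Matrix (Fin 4) (Fin 4) ℝ) : ℝ := c ^ 2 + mdot H H + mdot K K

lemma jetSize_smul (r c : ℝ) (H K : Matrix (Fin 4) (Fin 4) ℝ) :
    jetSize (r * c) (r • H) (r • K) = r ^ 2 * jetSize c H K := by
  simp only [jetSize, mdot_smul_smul]
  ring

lemma mdot_nonneg (H : Matrix (Fin 4) (Fin 4) ℝ) : 0 ≤ mdot H H :=
  Finset.sum_nonneg fun _ _ => Finset.sum_nonneg fun _ _ => mul_self_nonneg _

lemma abs_dot_le {n : ℕ} (u v : Fin n → ℝ) : |u ⬝ᵥ v| ≤ (u ⬝ᵥ u + v ⬝ᵥ v) / 2 := by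
  simp only [dotProduct, ← Finset.sum_add_distrib, Finset.sum_div]
  refine (Finset.abs_sum_le_sum_abs _ _).trans (Finset.sum_le_sum fun i _ => ?_)
  rw [abs_mul]
  nlinarith [sq_abs (u i), sq_abs (v i), sq_nonneg (|u i| - |v i|)]

lemma dot_self_nonneg {n : ℕ} (v : Fin n → ℝ) : 0 ≤ v ⬝ᵥ v :=
  Finset.sum_nonneg fun _ _ => mul_self_nonneg _

lemma dot_add_self_le {n : ℕ} (u v : Fin n → ℝ) :
    (u + v) ⬝ᵥ (u + v) ≤ 2 * (u ⬝ᵥ u + v ⬝ᵥ v) ∧ (u - v) ⬝ᵥ (u - v) ≤ 2 * (u ⬝ᵥ u + v ⬝ᵥ v) := by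
  simp only [dotProduct, Pi.add_apply, Pi.sub_apply, ← Finset.sum_add_distrib, Finset.mul_sum]
  exact ⟨Finset.sum_le_sum fun i _ => by nlinarith [sq_nonneg (u i - v i)],
    Finset.sum_le_sum fun i _ => by nlinarith [sq_nonneg (u i + v i)]⟩

lemma mulVec_self_le (H : Matrix (Fin 4) (Fin 4) ℝ) (v : Fin 4 → ℝ) :
    (H *ᵥ v) ⬝ᵥ (H *ᵥ v) ≤ mdot H H * (v ⬝ᵥ v) := by
  rw [mdot, Finset.sum_mul]
  conv_lhs => rw [dotProduct]
  refine Finset.sum_le_sum fun i _ => ?_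
  simpa [Matrix.mulVec, dotProduct, pow_two] using
    Finset.sum_mul_sq_le_sq_mul_sq Finset.univ (H i) v

lemma trace_sq_le (H : Matrix (Fin 4) (Fin 4) ℝ) : H.trace ^ 2 ≤ 4 * mdot H H := by
  have h1 : H.trace ^ 2 ≤ 4 * ∑ i, H i i ^ 2 := by
    simpa [Matrix.trace] using sq_sum_le_card_mul_sum_sq (s := Finset.univ) (f := fun i => H i i)
  refine h1.trans (mul_le_mul_of_nonneg_left ?_ (by norm_num))
  refine Finset.sum_le_sum fun i _ => ?_
  have := Finset.single_le_sum (f := fun j => H i j * H i j) (fun j _ => mul_self_nonneg _)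
    (Finset.mem_univ i)
  simpa [pow_two] using this

lemma abs_mdot_le (H K : Matrix (Fin 4) (Fin 4) ℝ) : |mdot H K| ≤ (mdot H H + mdot K K) / 2 := by
  simp only [mdot, ← Finset.sum_add_distrib, Finset.sum_div]
  refine (Finset.abs_sum_le_sum_abs _ _).trans (Finset.sum_le_sum fun i _ => ?_)
  refine (Finset.abs_sum_le_sum_abs _ _).trans (Finset.sum_le_sum fun j _ => ?_)
  rw [abs_mul]
  nlinarith [sq_abs (H i j), sq_abs (K i j), sq_nonneg (|H i j| - |K i j|)]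

lemma smul_dot_self {n : ℕ} (r : ℝ) (v : Fin n → ℝ) : (r • v) ⬝ᵥ (r • v) = r ^ 2 * (v ⬝ᵥ v) := by
  simp [smul_dotProduct, dotProduct_smul]
  ring

lemma smul_self_le {c : ℝ} {H K : Matrix (Fin 4) (Fin 4) ℝ} {v : Fin 4 → ℝ} {R : ℝ}
    (hv : v ⬝ᵥ v ≤ R) : (c • v) ⬝ᵥ (c • v) ≤ 4 * (R * jetSize c H K) := by
  rw [smul_dot_self]
  have hR : 0 ≤ R := (dot_self_nonneg v).trans hv
  have h1 : c ^ 2 ≤ jetSize c H K := by
    unfold jetSize; linarith [mdot_nonneg H, mdot_nonneg K]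
  have h2 := mul_le_mul h1 hv (dot_self_nonneg v) ((sq_nonneg c).trans h1)
  have h3 := mul_nonneg hR ((sq_nonneg c).trans h1)
  linarith

lemma apply_self_le {M : Matrix (Fin 4) (Fin 4) ℝ} {v : Fin 4 → ℝ} {R N : ℝ}
    (hv : v ⬝ᵥ v ≤ R) (hM : mdot M M ≤ N) :
    (M *ᵥ v) ⬝ᵥ (M *ᵥ v) ≤ R * N ∧
      (M *ᵥ v - M.trace • v) ⬝ᵥ (M *ᵥ v - M.trace • v) ≤ 10 * (R * N) := by
  have hR : 0 ≤ R := (dot_self_nonneg v).trans hv
  have h1 := (mulVec_self_le M v).trans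
    (mul_le_mul hM hv (dot_self_nonneg v) ((mdot_nonneg M).trans hM))
  refine ⟨h1.trans_eq (mul_comm N R), (dot_add_self_le _ _).2.trans ?_⟩
  rw [smul_dot_self]
  have h2 := mul_le_mul (trace_sq_le M) hv (dot_self_nonneg v)
    (mul_nonneg (by norm_num) (mdot_nonneg M))
  have h3 := mul_le_mul_of_nonneg_right hM hR
  linarith

lemma abs_scalarPart_le (c : ℝ) (a b : Fin 4 → ℝ) (H K : Matrix (Fin 4) (Fin 4) ℝ) (i : Fin 6) :
    |scalarPart c a b H K i| ≤ 5 * jetSize c H K + 3 * ((a ⬝ᵥ a + b ⬝ᵥ b) * jetSize c H K) := by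
  have hH := mdot_nonneg H
  have hK := mdot_nonneg K
  have ha := dot_self_nonneg a
  have hb := dot_self_nonneg b
  have hc := sq_nonneg c
  have hab := abs_le.1 (abs_dot_le a b)
  have hm := abs_le.1 (abs_mdot_le H K)
  have hN : jetSize c H K = c ^ 2 + mdot H H + mdot K K := rfl
  have hR := mul_le_mul_of_nonneg_left (show c ^ 2 ≤ jetSize c H K by linarith) (add_nonneg ha hb)
  have hca := mul_nonneg hc ha
  have hcb := mul_nonneg hc hb
  have hab1 := mul_le_mul_of_nonneg_left hab.1 hc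
  have hab2 := mul_le_mul_of_nonneg_left hab.2 hc
  have tH := trace_sq_le H
  have tK := trace_sq_le K
  have hx : ∀ x y : ℝ, -(x * x + y * y) ≤ 2 * (x * y) ∧ 2 * (x * y) ≤ x * x + y * y := fun x y =>
    ⟨by nlinarith [sq_nonneg (x + y)], by nlinarith [sq_nonneg (x - y)]⟩
  obtain ⟨a1, a2⟩ := hx c H.trace
  obtain ⟨b1, b2⟩ := hx c K.trace
  obtain ⟨c1, c2⟩ := hx H.trace K.trace
  rw [abs_le]
  fin_cases i <;> simp [scalarPart] <;> constructor <;> linarith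

lemma abs_diffJet_le {Φ : (Fin 5 → ℝ) → ℝ} {s t B : ℝ} {a b : Fin 4 → ℝ}
    (hΦ : ∀ j, |part Φ j (pt s t a b)| ≤ B) (c : ℝ) (H K : Matrix (Fin 4) (Fin 4) ℝ)
    {v : Fin 4 → ℝ} (hv : v ⬝ᵥ v ≤ 10 * ((a ⬝ᵥ a + b ⬝ᵥ b) * jetSize c H K)) :
    |diffJet Φ c s t a b H K ⬝ᵥ v| ≤ 35 * (B * ((a ⬝ᵥ a + b ⬝ᵥ b) * jetSize c H K)) := by
  set R := a ⬝ᵥ a + b ⬝ᵥ b with hR
  set N := jetSize c H K with hN
  have ha := dot_self_nonneg a
  have hb := dot_self_nonneg b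
  have hH : mdot H H ≤ N := by rw [hN, jetSize]; linarith [sq_nonneg c, mdot_nonneg K]
  have hK : mdot K K ≤ N := by rw [hN, jetSize]; linarith [sq_nonneg c, mdot_nonneg H]
  have hB : 0 ≤ B := (abs_nonneg _).trans (hΦ 0)
  have haR : a ⬝ᵥ a ≤ R := le_add_of_nonneg_right hb
  have hbR : b ⬝ᵥ b ≤ R := le_add_of_nonneg_left ha
  have one : ∀ (r : ℝ) (u : Fin 4 → ℝ), |r| ≤ B → u ⬝ᵥ u ≤ 4 * (R * N) →
      |(r • u) ⬝ᵥ v| ≤ B * (7 * (R * N)) := fun r u hr hu => by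
    rw [smul_dotProduct, smul_eq_mul, abs_mul]
    exact mul_le_mul hr ((abs_dot_le u v).trans (by linarith)) (abs_nonneg _) hB
  have h0 := one _ _ (hΦ 0) (smul_self_le (c := c) (H := H) (K := K) haR)
  have h1 := one _ _ (hΦ 1) (smul_self_le (c := c) (H := H) (K := K) hbR)
  have h2 := one _ ((2 : ℝ) • (H *ᵥ a)) (hΦ 2)
    (by rw [smul_dot_self]; linarith [(apply_self_le haR hH).1])
  have h3 := one _ ((2 : ℝ) • (K *ᵥ b)) (hΦ 3)
    (by rw [smul_dot_self]; linarith [(apply_self_le hbR hK).1])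
  have h4 := one _ (H *ᵥ b + K *ᵥ a) (hΦ 4) ((dot_add_self_le _ _).1.trans
    (by linarith [(apply_self_le hbR hH).1, (apply_self_le haR hK).1]))
  simp only [diffJet, add_dotProduct]
  rw [abs_le] at h0 h1 h2 h3 h4 ⊢
  constructor <;> linarith [h0.1, h0.2, h1.1, h1.2, h2.1, h2.2, h3.1, h3.2, h4.1, h4.2]

/-- A bound on the divergence by a bound on the coefficients and their derivatives. -/
lemma abs_divJet_le {P : Fin 6 → (Fin 5 → ℝ) → ℝ} {s t B : ℝ} {a b : Fin 4 → ℝ}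
    (h : ∀ i, |P i (pt s t a b)| ≤ B ∧ ∀ j, |part (P i) j (pt s t a b)| ≤ B) (c : ℝ)
    (H K : Matrix (Fin 4) (Fin 4) ℝ) :
    |divJet P c s t a b H K| ≤ 600 * B * (1 + (a ⬝ᵥ a + b ⬝ᵥ b)) * jetSize c H K := by
  have hB : 0 ≤ B := (abs_nonneg _).trans (h 0).1
  have ha := dot_self_nonneg a
  have hb := dot_self_nonneg b
  have hH : mdot H H ≤ jetSize c H K := by
    rw [jetSize]; linarith [sq_nonneg c, mdot_nonneg K]
  have hK : mdot K K ≤ jetSize c H K := by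
    rw [jetSize]; linarith [sq_nonneg c, mdot_nonneg H]
  have hN0 : 0 ≤ jetSize c H K := (mdot_nonneg H).trans hH
  have haR : a ⬝ᵥ a ≤ a ⬝ᵥ a + b ⬝ᵥ b := le_add_of_nonneg_right hb
  have hbR : b ⬝ᵥ b ≤ a ⬝ᵥ a + b ⬝ᵥ b := le_add_of_nonneg_left ha
  have hRN := mul_nonneg (add_nonneg ha hb) hN0
  have vb : ∀ i, vecPart c a b H K i ⬝ᵥ vecPart c a b H K i ≤
      10 * ((a ⬝ᵥ a + b ⬝ᵥ b) * jetSize c H K) := by
    intro i
    fin_cases i
    · exact (smul_self_le haR).trans (by linarith)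
    · exact (smul_self_le hbR).trans (by linarith)
    · exact (apply_self_le haR hH).2
    · exact (apply_self_le hbR hK).2
    · exact (apply_self_le hbR hH).2
    · exact (apply_self_le haR hK).2
  have hterm : ∀ i, |divTerm (P i) c s t a b H K (scalarPart c a b H K i) (vecPart c a b H K i)| ≤
      100 * B * (1 + (a ⬝ᵥ a + b ⬝ᵥ b)) * jetSize c H K := fun i => by
    refine (abs_add_le _ _).trans ?_
    rw [abs_mul]
    have e1 := mul_le_mul (h i).1 (abs_scalarPart_le c a b H K i) (abs_nonneg _) hB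
    have e2 := abs_diffJet_le (h i).2 c H K (vb i)
    linarith [mul_nonneg hB hN0, mul_nonneg hB hRN]
  rw [divJet]
  refine (Finset.abs_sum_le_sum_abs _ _).trans ((Finset.sum_le_sum fun i _ => hterm i).trans_eq ?_)
  simp
  ring

/-- What the exact equations say on the contact set: the two forces are at most the penalty force
`φ` times the derivative of the constraint, one of them is equal to it, and so is any whose variable
exceeds the largest possible barrier. -/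
def Forces (φ s t p p' : ℝ) : Prop :=
  0 ≤ p ∧ 0 ≤ p' ∧ p ≤ φ * eC s ∧ p' ≤ φ * eC t ∧ (p = φ * eC s ∨ p' = φ * eC t) ∧
    (2 < s ^ 3 → p = φ * eC s) ∧ (2 < t ^ 3 → p' = φ * eC t)

/-- A pointwise certificate at level two with loss `κ`, for penalty forces up to `Φ`: six
coefficients and a multiplier of the constraint, affine in the penalty force, such that the
divergence dominates `G` on every jet that an exact limit may have. -/
structure Cert (G : ℝ → ℝ → ℝ) (κ Φ : ℝ) where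
  /-- The coefficients. -/
  P : Fin 6 → (Fin 5 → ℝ) → ℝ
  /-- The multiplier of the constraint: its constant part and its slope in the penalty force. -/
  k : (Fin 5 → ℝ) → ℝ
  /-- The slope. -/
  k₁ : (Fin 5 → ℝ) → ℝ
  smooth_P : ∀ i, ContDiff ℝ ∞ (P i)
  smooth_k : ContDiff ℝ ∞ k
  smooth_k₁ : ContDiff ℝ ∞ k₁
  growth : ∃ (q : ℕ) (B : ℝ), ∀ (s t : ℝ) (a b : Fin 4 → ℝ),
    s ∈ Set.Icc (-1 : ℝ) 3 → t ∈ Set.Icc (-1 : ℝ) 3 →
      (∀ i, |P i (pt s t a b)| ≤ B * (1 + (a ⬝ᵥ a + b ⬝ᵥ b)) ^ q ∧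
        ∀ j, |part (P i) j (pt s t a b)| ≤ B * (1 + (a ⬝ᵥ a + b ⬝ᵥ b)) ^ q) ∧
      |k (pt s t a b)| ≤ B * (1 + (a ⬝ᵥ a + b ⬝ᵥ b)) ^ q ∧
      |k₁ (pt s t a b)| ≤ B * (1 + (a ⬝ᵥ a + b ⬝ᵥ b)) ^ q
  nonneg_k : ∀ (s t : ℝ) (a b : Fin 4 → ℝ), 0 ≤ s → 0 ≤ t → qC s + qC t = 2 →
    0 ≤ k (pt s t a b) ∧ 0 ≤ k₁ (pt s t a b)
  interior : ∀ (s t : ℝ) (a b : Fin 4 → ℝ) (H K : Matrix (Fin 4) (Fin 4) ℝ),
    H.IsSymm → K.IsSymm → 0 ≤ s → 0 ≤ t → qC s + qC t ≤ 2 →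
    H.trace = 2 * s * (1 - s ^ 3) - soft s t → K.trace = 2 * t * (1 - t ^ 3) - soft t s →
      G s t ≤ divJet P 1 s t a b H K + κ
  contact : ∀ (φ s t p p' : ℝ) (a b : Fin 4 → ℝ) (H K : Matrix (Fin 4) (Fin 4) ℝ),
    H.IsSymm → K.IsSymm → 0 ≤ s → 0 ≤ t → qC s + qC t = 2 →
    eC s • a + eC t • b = 0 → φ ∈ Set.Icc 0 Φ → Forces φ s t p p' →
    H.trace = 2 * s * (1 - s ^ 3) + p → K.trace = 2 * t * (1 - t ^ 3) + p' →
      G s t ≤ divJet P 1 s t a b H K +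
        (k (pt s t a b) + φ * k₁ (pt s t a b)) * levelJet 1 s t a b H K + κ

end

end Vale.Agent.P211.Analytic
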