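import Mathlib
import Vale.Agent.P211.Analytic.Passage.Jet
import Vale.Agent.P211.Analytic.Limit

/-!
P211, module F (note 1326): by compactness of normalised jets, a certificate survives a small
violation of its hypotheses, at the cost of a small multiple of the size of the jet.
-/

open Matrix Filter Topology
open scoped ContDiff

namespace Vale.Agent.P211.Analytic

noncomputable section

/-- A scale, two values, two forces, two differentials and two Hessians. -/
abbrev JetSpace : Type := ℝ × ℝ × ℝ × ℝ × ℝ × (Fin 4 → ℝ) × (Fin 4 → ℝ) ×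
  Matrix (Fin 4) (Fin 4) ℝ × Matrix (Fin 4) (Fin 4) ℝ

/-- Read a function of nine arguments on the space of jets. -/
def onJets (ψ : ℝ → ℝ → ℝ → ℝ → ℝ → (Fin 4 → ℝ) → (Fin 4 → ℝ) → Matrix (Fin 4) (Fin 4) ℝ →
    Matrix (Fin 4) (Fin 4) ℝ → ℝ) (z : JetSpace) : ℝ :=
  ψ z.1 z.2.1 z.2.2.1 z.2.2.2.1 z.2.2.2.2.1 z.2.2.2.2.2.1 z.2.2.2.2.2.2.1 z.2.2.2.2.2.2.2.1
    z.2.2.2.2.2.2.2.2

lemma continuous_mdot_mat {Y : Type*} [TopologicalSpace Y] {H K : Y → Matrix (Fin 4) (Fin 4) ℝ}
    (hH : Continuous H) (hK : Continuous K) : Continuous fun y => mdot (H y) (K y) :=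
  continuous_finsetSum _ fun i _ => continuous_finsetSum _ fun j _ =>
    (hH.matrix_elem i j).mul (hK.matrix_elem i j)

lemma continuous_part {n : ℕ} {Φ : (Fin n → ℝ) → ℝ} (h : ContDiff ℝ ∞ Φ) (i : Fin n) :
    Continuous (part Φ i) :=
  (h.continuous_fderiv (by simp)).clm_apply continuous_const

lemma continuous_pt {Y : Type*} [TopologicalSpace Y] {s t : Y → ℝ} {a b : Y → Fin 4 → ℝ}
    (hs : Continuous s) (ht : Continuous t) (ha : Continuous a) (hb : Continuous b) :
    Continuous fun y => pt (s y) (t y) (a y) (b y) := by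
  refine continuous_pi fun i => ?_
  fin_cases i <;> simp [pt] <;> fun_prop

lemma continuous_divJet {Y : Type*} [TopologicalSpace Y] {P : Fin 6 → (Fin 5 → ℝ) → ℝ}
    (hP : ∀ i, ContDiff ℝ ∞ (P i)) {c s t : Y → ℝ} {a b : Y → Fin 4 → ℝ}
    {H K : Y → Matrix (Fin 4) (Fin 4) ℝ} (hc : Continuous c) (hs : Continuous s)
    (ht : Continuous t) (ha : Continuous a) (hb : Continuous b) (hH : Continuous H)
    (hK : Continuous K) :
    Continuous fun y => divJet P (c y) (s y) (t y) (a y) (b y) (H y) (K y) := by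
  have hy := continuous_pt hs ht ha hb
  have hp : ∀ i j, Continuous fun y => part (P i) j (pt (s y) (t y) (a y) (b y)) := fun i j =>
    (continuous_part (hP i) j).comp hy
  have hv : ∀ i, Continuous fun y => vecPart (c y) (a y) (b y) (H y) (K y) i := fun i => by
    fin_cases i <;> simp [vecPart] <;> fun_prop
  have hs' : ∀ i, Continuous fun y => scalarPart (c y) (a y) (b y) (H y) (K y) i := fun i => by
    have h1 := continuous_mdot_mat hH hH
    have h2 := continuous_mdot_mat hK hK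
    have h3 := continuous_mdot_mat hH hK
    fin_cases i <;> simp [scalarPart] <;> fun_prop
  have hd : ∀ i, Continuous fun y => diffJet (P i) (c y) (s y) (t y) (a y) (b y) (H y) (K y) :=
    fun i => by
      simp only [diffJet]
      have := hp i 0; have := hp i 1; have := hp i 2; have := hp i 3; have := hp i 4
      fun_prop
  exact continuous_finsetSum _ fun i _ =>
    (((hP i).continuous.comp hy).mul (hs' i)).add ((hd i).dotProduct (hv i))

/-- The normalised jets in question. -/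
def jetBox (T M : ℝ) : Set JetSpace :=
  {z | z.1 ∈ Set.Icc (0 : ℝ) 1 ∧ z.2.1 ∈ Set.Icc (-1 : ℝ) 3 ∧ z.2.2.1 ∈ Set.Icc (-1 : ℝ) 3 ∧
    z.2.2.2.1 ∈ Set.Icc 0 T ∧ z.2.2.2.2.1 ∈ Set.Icc 0 T ∧
    z.2.2.2.2.2.1 ⬝ᵥ z.2.2.2.2.2.1 + z.2.2.2.2.2.2.1 ⬝ᵥ z.2.2.2.2.2.2.1 ≤ M ∧
    z.2.2.2.2.2.2.2.1.IsSymm ∧ z.2.2.2.2.2.2.2.2.IsSymm ∧
    jetSize z.1 z.2.2.2.2.2.2.2.1 z.2.2.2.2.2.2.2.2 = 1}

lemma isCompact_jetBox (T M : ℝ) : IsCompact (jetBox T M) := by
  have hv : IsCompact {a : Fin 4 → ℝ | ∀ i, a i ∈ Set.Icc (-(M + 1)) (M + 1)} :=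
    isCompact_pi_infinite fun _ => isCompact_Icc
  have hm : IsCompact {H : Matrix (Fin 4) (Fin 4) ℝ | ∀ i, H i ∈ {v : Fin 4 → ℝ |
      ∀ j, v j ∈ Set.Icc (-1 : ℝ) 1}} :=
    isCompact_pi_infinite fun _ => isCompact_pi_infinite fun _ => isCompact_Icc
  refine IsCompact.of_isClosed_subset ((isCompact_Icc (a := (0 : ℝ)) (b := 1)).prod
    ((isCompact_Icc (a := (-1 : ℝ)) (b := 3)).prod ((isCompact_Icc (a := (-1 : ℝ)) (b := 3)).prod
    ((isCompact_Icc (a := (0 : ℝ)) (b := T)).prod ((isCompact_Icc (a := (0 : ℝ)) (b := T)).prod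
    (hv.prod (hv.prod (hm.prod hm)))))))) ?_ ?_
  · simp only [jetBox, Matrix.IsSymm, jetSize, Set.mem_Icc, Set.ofPred_and]
    have h1 := continuous_mdot_mat (H := fun z : JetSpace => z.2.2.2.2.2.2.2.1)
      (K := fun z => z.2.2.2.2.2.2.2.1) (by fun_prop) (by fun_prop)
    have h2 := continuous_mdot_mat (H := fun z : JetSpace => z.2.2.2.2.2.2.2.2)
      (K := fun z => z.2.2.2.2.2.2.2.2) (by fun_prop) (by fun_prop)
    repeat' refine IsClosed.inter ?_ ?_
    all_goals first
      | exact isClosed_eq (by fun_prop) (by fun_prop)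
      | exact isClosed_le (by fun_prop) (by fun_prop)
  · rintro ⟨c, s, t, p, p', a, b, H, K⟩ ⟨hc, hs, ht, hp, hp', hR, -, -, hN⟩
    simp only at hR hN
    have ha : ∀ v : Fin 4 → ℝ, v ⬝ᵥ v ≤ M → ∀ i, v i ∈ Set.Icc (-(M + 1)) (M + 1) := fun v hv i => by
      have : v i * v i ≤ M := (Finset.single_le_sum (f := fun j => v j * v j)
        (fun j _ => mul_self_nonneg _) (Finset.mem_univ i)).trans hv
      constructor <;> nlinarith [mul_self_nonneg (v i - 1), mul_self_nonneg (v i + 1)]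
    have hH : ∀ A : Matrix (Fin 4) (Fin 4) ℝ, mdot A A ≤ 1 → ∀ i j, A i j ∈ Set.Icc (-1 : ℝ) 1 :=
      fun A hA i j => by
        have h1 : A i j * A i j ≤ ∑ l, A i l * A i l :=
          Finset.single_le_sum (f := fun l => A i l * A i l) (fun l _ => mul_self_nonneg _)
            (Finset.mem_univ j)
        have h2 : ∑ l, A i l * A i l ≤ mdot A A :=
          Finset.single_le_sum (f := fun m => ∑ l, A m l * A m l)
            (fun m _ => Finset.sum_nonneg fun l _ => mul_self_nonneg _) (Finset.mem_univ i)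
        constructor <;> nlinarith
    rw [jetSize] at hN
    exact ⟨hc, hs, ht, hp, hp', ha a (by linarith [dot_self_nonneg b]),
      ha b (by linarith [dot_self_nonneg a]),
      hH H (by linarith [sq_nonneg c, mdot_nonneg K]), hH K (by linarith [sq_nonneg c, mdot_nonneg H])⟩

/-- On a compact set, a condition that holds at the zeros of a nonnegative function nearly holds
near them. -/
lemma nearly {Z : Type*} [TopologicalSpace Z] {W : Set Z} (hW : IsCompact W) {ψ Φ : Z → ℝ}
    (hψ : Continuous ψ) (hΦ : Continuous Φ) (h0 : ∀ z, 0 ≤ ψ z)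
    (hz : ∀ z ∈ W, ψ z = 0 → 0 ≤ Φ z) {ε : ℝ} (hε : 0 < ε) :
    ∃ d > 0, ∀ z ∈ W, ψ z ≤ d → -ε ≤ Φ z := by
  have hW' : IsCompact (W ∩ Φ ⁻¹' Set.Iic (-ε)) := hW.inter_right (isClosed_Iic.preimage hΦ)
  rcases (W ∩ Φ ⁻¹' Set.Iic (-ε)).eq_empty_or_nonempty with he | hne
  · refine ⟨1, one_pos, fun z hz _ => ?_⟩
    by_contra hc
    exact Set.eq_empty_iff_forall_notMem.1 he z ⟨hz, (not_le.1 hc).le⟩
  obtain ⟨m, ⟨hm, hΦm⟩, hmin⟩ := hW'.exists_isMinOn hne hψ.continuousOn
  have hpos : 0 < ψ m := (h0 m).lt_of_ne fun e => by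
    have := hz m hm e.symm
    simp only [Set.mem_preimage, Set.mem_Iic] at hΦm
    linarith
  refine ⟨ψ m / 2, half_pos hpos, fun z hz hd => ?_⟩
  by_contra hc
  have : ψ m ≤ ψ z := hmin ⟨hz, (not_le.1 hc).le⟩
  linarith

namespace Cert

variable {G : ℝ → ℝ → ℝ} {κ Φmax : ℝ} (C : Cert G κ Φmax)

/-- On pairs of trace free Hessians the certificate has the right sign. -/
lemma recession {s t : ℝ} {a b : Fin 4 → ℝ} {H K : Matrix (Fin 4) (Fin 4) ℝ} (hH : H.IsSymm)
    (hK : K.IsSymm) (hs : 0 ≤ s) (ht : 0 ≤ t) (hL : qC s + qC t ≤ 2) (hH0 : H.trace = 0)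
    (hK0 : K.trace = 0) : 0 ≤ divJet C.P 0 s t a b H K := by
  set u := (2 * s * (1 - s ^ 3) - soft s t) / 4
  set v := (2 * t * (1 - t ^ 3) - soft t s) / 4
  let φ : ℝ → ℝ := fun r => divJet C.P r s t a b (H + (r * u) • 1) (K + (r * v) • 1) +
    r ^ 2 * (κ - G s t)
  have hc : Continuous φ := (continuous_divJet C.smooth_P continuous_id continuous_const
    continuous_const continuous_const continuous_const (by fun_prop) (by fun_prop)).add (by fun_prop)
  have h : ∀ r > 0, 0 ≤ φ r := fun r hr => by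
    have e := divJet_smul C.P r 1 s t a b (r⁻¹ • H + u • 1) (r⁻¹ • K + v • 1)
    rw [mul_one, smul_add, smul_add, smul_smul, smul_smul, smul_smul, smul_smul,
      mul_inv_cancel₀ hr.ne', one_smul, one_smul] at e
    have h1 := C.interior s t a b (r⁻¹ • H + u • 1) (r⁻¹ • K + v • 1)
      ((hH.smul _).add (Matrix.isSymm_one.smul _)) ((hK.smul _).add (Matrix.isSymm_one.smul _))
      hs ht hL (by simp [Matrix.trace_smul, hH0, u]) (by simp [Matrix.trace_smul, hK0, v])
    simp only [φ, e]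
    nlinarith [sq_nonneg r]
  have hlim : Tendsto φ (𝓝[>] 0) (𝓝 (φ 0)) := (hc.tendsto 0).mono_left nhdsWithin_le_nhds
  have := ge_of_tendsto hlim (eventually_nhdsWithin_of_forall fun r hr => h r hr)
  simpa [φ] using this

lemma continuous_coef {f : (Fin 5 → ℝ) → ℝ} (hf : Continuous f) :
    Continuous (onJets fun _ s t _ _ a b _ _ => f (pt s t a b)) :=
  hf.comp (continuous_pt (by fun_prop) (by fun_prop) (by fun_prop) (by fun_prop))

lemma continuous_div : Continuous (onJets fun c s t _ _ a b H K => divJet C.P c s t a b H K) :=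
  continuous_divJet C.smooth_P (by fun_prop) (by fun_prop) (by fun_prop) (by fun_prop) (by fun_prop)
    (by fun_prop) (by fun_prop)

/-- Normalisation of a jet. -/
lemma unit_jet {M T : ℝ} {s t p p' : ℝ} {a b : Fin 4 → ℝ} {H K : Matrix (Fin 4) (Fin 4) ℝ}
    (hs : s ∈ Set.Icc (-1 : ℝ) 3) (ht : t ∈ Set.Icc (-1 : ℝ) 3) (hp : p ∈ Set.Icc 0 T)
    (hp' : p' ∈ Set.Icc 0 T) (hR : a ⬝ᵥ a + b ⬝ᵥ b ≤ M) (hH : H.IsSymm) (hK : K.IsSymm) :
    ∃ r : ℝ, 0 < r ∧ r ≤ 1 ∧ r ^ 2 * jetSize 1 H K = 1 ∧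
      ((r * 1, s, t, p, p', a, b, r • H, r • K) : JetSpace) ∈ jetBox T M := by
  have hN : 1 ≤ jetSize 1 H K := by
    rw [jetSize]; linarith [mdot_nonneg H, mdot_nonneg K]
  have hq : 0 < √(jetSize 1 H K) := Real.sqrt_pos.2 (by linarith)
  refine ⟨(√(jetSize 1 H K))⁻¹, inv_pos.2 hq, inv_le_one_of_one_le₀ (Real.one_le_sqrt.2 hN), ?_,
    ⟨?_, hs, ht, hp, hp', hR, hH.smul _, hK.smul _, ?_⟩⟩
  · rw [inv_pow, Real.sq_sqrt (by linarith), inv_mul_cancel₀ (by linarith)]
  · rw [mul_one]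
    exact ⟨(inv_pos.2 hq).le, inv_le_one_of_one_le₀ (Real.one_le_sqrt.2 hN)⟩
  · rw [jetSize_smul, inv_pow, Real.sq_sqrt (by linarith), inv_mul_cancel₀ (by linarith)]

/-- The interior condition, nearly. -/
theorem interior_nearly (hG : Continuous fun z : ℝ × ℝ => G z.1 z.2) (M : ℝ) {ε : ℝ} (hε : 0 < ε) :
    ∃ d > 0, ∀ (s t : ℝ) (a b : Fin 4 → ℝ) (H K : Matrix (Fin 4) (Fin 4) ℝ),
      H.IsSymm → K.IsSymm → s ∈ Set.Icc (-d) 3 → t ∈ Set.Icc (-d) 3 → -1 ≤ s → -1 ≤ t →
      a ⬝ᵥ a + b ⬝ᵥ b ≤ M → qC s + qC t ≤ 2 + d → |H.trace - (react s - soft s t)| ≤ d →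
      |K.trace - (react t - soft t s)| ≤ d →
        G s t ≤ divJet C.P 1 s t a b H K + κ + ε * jetSize 1 H K := by
  have := continuous_qC
  have := continuous_qC
  let ψ := onJets fun c s t _ _ _ _ H K => |H.trace - c * (react s - soft s t)| +
    |K.trace - c * (react t - soft t s)| +
    (max (-s) 0 + max (-t) 0 + max (qC s + qC t - 2) 0)
  let Φ := onJets fun c s t _ _ a b H K => divJet C.P c s t a b H K + c ^ 2 * (κ - G s t)
  have hr : Continuous react := by unfold react; fun_prop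
  have hs₁ : Continuous fun z : JetSpace => soft z.2.1 z.2.2.1 :=
    continuous_soft.comp (continuous_snd.fst.prodMk continuous_snd.snd.fst)
  have hs₂ : Continuous fun z : JetSpace => soft z.2.2.1 z.2.1 :=
    continuous_soft.comp (continuous_snd.snd.fst.prodMk continuous_snd.fst)
  have hGc : Continuous fun z : JetSpace => G z.2.1 z.2.2.1 :=
    hG.comp (continuous_snd.fst.prodMk continuous_snd.snd.fst)
  have hzero : ∀ z ∈ jetBox 0 M, ψ z = 0 → 0 ≤ Φ z := by
    intro z hz h0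
    obtain ⟨c, s, t, p, p', a, b, H, K⟩ := z
    obtain ⟨hc, -, -, -, -, -, hH, hK, -⟩ := hz
    simp only [ψ, Φ, onJets] at h0 hH hK hc ⊢
    have a1 := abs_nonneg (H.trace - c * (react s - soft s t))
    have a2 := abs_nonneg (K.trace - c * (react t - soft t s))
    have a3 := le_max_left (-s) 0
    have a4 := le_max_left (-t) 0
    have a5 := le_max_left (qC s + qC t - 2) 0
    have a6 := le_max_right (-s) 0
    have a7 := le_max_right (-t) 0
    have a8 := le_max_right (qC s + qC t - 2) 0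
    have e1 : H.trace = c * (react s - soft s t) := sub_eq_zero.1 (abs_eq_zero.1 (by linarith))
    have e2 : K.trace = c * (react t - soft t s) := sub_eq_zero.1 (abs_eq_zero.1 (by linarith))
    rcases eq_or_lt_of_le hc.1 with hc0 | hc0
    · subst hc0
      simpa using C.recession hH hK (by linarith) (by linarith) (by linarith) (by simpa using e1)
        (by simpa using e2)
    · have key := C.interior s t a b (c⁻¹ • H) (c⁻¹ • K) (hH.smul _) (hK.smul _) (by linarith)
        (by linarith) (by linarith)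
        (by rw [Matrix.trace_smul, smul_eq_mul, e1, inv_mul_cancel_left₀ hc0.ne', react])
        (by rw [Matrix.trace_smul, smul_eq_mul, e2, inv_mul_cancel_left₀ hc0.ne', react])
      have e := divJet_smul C.P c 1 s t a b (c⁻¹ • H) (c⁻¹ • K)
      rw [mul_one, smul_smul, smul_smul, mul_inv_cancel₀ hc0.ne', one_smul, one_smul] at e
      rw [e]
      nlinarith [sq_nonneg c]
  obtain ⟨d, hd, hnear⟩ := nearly (isCompact_jetBox 0 M) (ψ := ψ) (Φ := Φ)
    (by simp only [ψ]; unfold onJets; fun_prop)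
    (C.continuous_div.add (((continuous_fst.pow 2)).mul (continuous_const.sub hGc)))
    (fun z => by simp only [ψ, onJets]; positivity) hzero hε
  refine ⟨d / 8, by positivity, fun s t a b H K hH hK hs ht hs1 ht1 hR hL h1 h2 => ?_⟩
  obtain ⟨r, r0, r1, rN, hmem⟩ := unit_jet (T := 0) (p := 0) (p' := 0) ⟨hs1, hs.2⟩ ⟨ht1, ht.2⟩
    ⟨le_rfl, le_rfl⟩ ⟨le_rfl, le_rfl⟩ hR hH hK
  have key := hnear _ hmem ?_
  · simp only [Φ, onJets, mul_one] at key
    have e := divJet_smul C.P r 1 s t a b H K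
    rw [mul_one] at e
    rw [e] at key
    have h3 : r ^ 2 * (-(ε * jetSize 1 H K)) ≤ r ^ 2 * (divJet C.P 1 s t a b H K + (κ - G s t)) := by
      have : r ^ 2 * (-(ε * jetSize 1 H K)) = -ε * (r ^ 2 * jetSize 1 H K) := by ring
      rw [this, rN]
      linarith
    linarith [le_of_mul_le_mul_left h3 (by positivity)]
  · simp only [ψ, onJets, Matrix.trace_smul, smul_eq_mul, mul_one, ← mul_sub, abs_mul,
      abs_of_pos r0]
    have u1 := mul_le_mul r1 h1 (abs_nonneg _) zero_le_one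
    have u2 := mul_le_mul r1 h2 (abs_nonneg _) zero_le_one
    have u3 : max (-s) 0 ≤ d / 8 := max_le (by linarith [hs.1]) (by linarith)
    have u4 : max (-t) 0 ≤ d / 8 := max_le (by linarith [ht.1]) (by linarith)
    have u5 : max (qC s + qC t - 2) 0 ≤ d / 8 := max_le (by linarith) (by linarith)
    linarith

/-- The contact condition, nearly. -/
theorem contact_nearly (hG : Continuous fun z : ℝ × ℝ => G z.1 z.2) (M T : ℝ) {ε : ℝ}
    (hε : 0 < ε) :
    ∃ d > 0, ∀ (φ s t p p' : ℝ) (a b : Fin 4 → ℝ) (H K : Matrix (Fin 4) (Fin 4) ℝ),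
      H.IsSymm → K.IsSymm → s ∈ Set.Icc (-d) 3 → t ∈ Set.Icc (-d) 3 → -1 ≤ s → -1 ≤ t →
      a ⬝ᵥ a + b ⬝ᵥ b ≤ M → |qC s + qC t - 2| ≤ d →
      (eC s • a + eC t • b) ⬝ᵥ (eC s • a + eC t • b) ≤ d →
      φ ∈ Set.Icc 0 Φmax → p ∈ Set.Icc 0 T → p' ∈ Set.Icc 0 T →
      p ≤ φ * eC s + d → p' ≤ φ * eC t + d → min |p - φ * eC s| |p' - φ * eC t| ≤ d →
      min |p - φ * eC s| (max (s ^ 3 - 2) 0) ≤ d → min |p' - φ * eC t| (max (t ^ 3 - 2) 0) ≤ d →
      |H.trace - (react s + p)| ≤ d → |K.trace - (react t + p')| ≤ d →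
        G s t ≤ divJet C.P 1 s t a b H K +
          (C.k (pt s t a b) + φ * C.k₁ (pt s t a b)) * levelJet 1 s t a b H K + κ +
          ε * jetSize 1 H K := by
  let ψ : ℝ × JetSpace → ℝ := fun w => onJets (fun c s t p p' a b H K =>
    |H.trace - c * (react s + p)| + |K.trace - c * (react t + p')| +
    (max (-s) 0 + max (-t) 0 + |qC s + qC t - 2|) +
    ((eC s • a + eC t • b) ⬝ᵥ (eC s • a + eC t • b) +
      (max (p - w.1 * eC s) 0 + max (p' - w.1 * eC t) 0 +
        min |p - w.1 * eC s| |p' - w.1 * eC t| +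
        (min |p - w.1 * eC s| (max (s ^ 3 - 2) 0) + min |p' - w.1 * eC t| (max (t ^ 3 - 2) 0))))) w.2
  let Φ : ℝ × JetSpace → ℝ := fun w => onJets (fun c s t _ _ a b H K => divJet C.P c s t a b H K +
    (C.k (pt s t a b) + w.1 * C.k₁ (pt s t a b)) * levelJet c s t a b H K +
    c ^ 2 * (κ - G s t)) w.2
  have hr : Continuous react := by unfold react; fun_prop
  have := continuous_qC
  have := continuous_eC
  have := continuous_eC₁
  have hGc : Continuous fun z : JetSpace => G z.2.1 z.2.2.1 :=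
    hG.comp (continuous_snd.fst.prodMk continuous_snd.snd.fst)
  have hlev : Continuous (onJets fun c s t _ _ a b H K => levelJet c s t a b H K) := by
    unfold onJets levelJet; fun_prop
  have h0ψ : ∀ w, 0 ≤ ψ w := fun w => by
    simp only [ψ, onJets]
    have := dot_self_nonneg (eC w.2.2.1 • w.2.2.2.2.2.2.1 +
      eC w.2.2.2.1 • w.2.2.2.2.2.2.2.1)
    positivity
  have hzero : ∀ w ∈ Set.Icc 0 Φmax ×ˢ jetBox T M, ψ w = 0 → 0 ≤ Φ w := by
    intro w hw h0
    obtain ⟨φ, c, s, t, p, p', a, b, H, K⟩ := w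
    obtain ⟨hφI, hc, -, -, hp, hp', -, hH, hK, -⟩ := hw
    simp only [ψ, Φ, onJets] at h0 hH hK hc hp hp' hφI ⊢
    have a1 := abs_nonneg (H.trace - c * (react s + p))
    have a2 := abs_nonneg (K.trace - c * (react t + p'))
    have a3 := le_max_left (-s) 0
    have a4 := le_max_left (-t) 0
    have a5 := abs_nonneg (qC s + qC t - 2)
    have a6 := le_max_right (-s) 0
    have a7 := le_max_right (-t) 0
    have a8 := dot_self_nonneg (eC s • a + eC t • b)
    have a9 := le_max_left (p - φ * eC s) 0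
    have a10 := le_max_right (p - φ * eC s) 0
    have a11 := le_max_left (p' - φ * eC t) 0
    have a12 := le_max_right (p' - φ * eC t) 0
    have a13 : 0 ≤ min |p - φ * eC s| |p' - φ * eC t| := le_min (abs_nonneg _) (abs_nonneg _)
    have a14 : 0 ≤ min |p - φ * eC s| (max (s ^ 3 - 2) 0) :=
      le_min (abs_nonneg _) (le_max_right _ _)
    have a15 : 0 ≤ min |p' - φ * eC t| (max (t ^ 3 - 2) 0) :=
      le_min (abs_nonneg _) (le_max_right _ _)
    have full : ∀ x u : ℝ, min |x| (max u 0) ≤ 0 → 0 < u → x = 0 := fun x u h hu => by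
      rcases min_le_iff.1 h with h | h
      · exact abs_eq_zero.1 (le_antisymm h (abs_nonneg _))
      · linarith [le_max_left u 0]
    have e1 : H.trace = c * (react s + p) := sub_eq_zero.1 (abs_eq_zero.1 (by linarith))
    have e2 : K.trace = c * (react t + p') := sub_eq_zero.1 (abs_eq_zero.1 (by linarith))
    have e3 : qC s + qC t = 2 := sub_eq_zero.1 (abs_eq_zero.1 (by linarith))
    rcases eq_or_lt_of_le hc.1 with hc0 | hc0
    · subst hc0
      simpa [levelJet] using C.recession hH hK (by linarith) (by linarith) e3.le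
        (by simpa using e1) (by simpa using e2)
    · have e4 : eC s • a + eC t • b = 0 := by
        have h4 : (eC s • a + eC t • b) ⬝ᵥ (eC s • a + eC t • b) = 0 := by
          linarith
        exact dotProduct_self_eq_zero.1 h4
      have e5 : p = φ * eC s ∨ p' = φ * eC t := by
        have h5 : min |p - φ * eC s| |p' - φ * eC t| ≤ 0 := by linarith
        rcases min_le_iff.1 h5 with h | h
        · exact Or.inl (sub_eq_zero.1 (abs_eq_zero.1 (le_antisymm h (abs_nonneg _))))
        · exact Or.inr (sub_eq_zero.1 (abs_eq_zero.1 (le_antisymm h (abs_nonneg _))))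
      have key := C.contact φ s t p p' a b (c⁻¹ • H) (c⁻¹ • K) (hH.smul _) (hK.smul _) (by linarith)
        (by linarith) e3 e4 hφI ⟨hp.1, hp'.1, by linarith, by linarith, e5,
          fun h => sub_eq_zero.1 (full _ _ (by linarith) (sub_pos.2 h)),
          fun h => sub_eq_zero.1 (full _ _ (by linarith) (sub_pos.2 h))⟩
        (by rw [Matrix.trace_smul, smul_eq_mul, e1, inv_mul_cancel_left₀ hc0.ne', react])
        (by rw [Matrix.trace_smul, smul_eq_mul, e2, inv_mul_cancel_left₀ hc0.ne', react])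
      have e := divJet_smul C.P c 1 s t a b (c⁻¹ • H) (c⁻¹ • K)
      have e' := levelJet_smul c 1 s t a b (c⁻¹ • H) (c⁻¹ • K)
      rw [mul_one, smul_smul, smul_smul, mul_inv_cancel₀ hc0.ne', one_smul, one_smul] at e e'
      rw [e, e']
      linarith [mul_le_mul_of_nonneg_left key (sq_nonneg c)]
  obtain ⟨d, hd, hnear⟩ := nearly (isCompact_Icc.prod (isCompact_jetBox T M)) (ψ := ψ) (Φ := Φ)
    (by simp only [ψ]; unfold onJets; fun_prop)
    (((C.continuous_div.comp continuous_snd).add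
      ((((continuous_coef C.smooth_k.continuous).comp continuous_snd).add
        (continuous_fst.mul ((continuous_coef C.smooth_k₁.continuous).comp continuous_snd))).mul
        (hlev.comp continuous_snd))).add
      (((continuous_fst.comp continuous_snd).pow 2).mul
        (continuous_const.sub (hGc.comp continuous_snd))))
    h0ψ hzero hε
  refine ⟨d / 11, by positivity, fun φ s t p p' a b H K hH hK hs ht hs1 ht1 hR hS hdS hφ hp hp'
    hpc hpc' hmin hf1 hf2 h1 h2 => ?_⟩
  obtain ⟨r, r0, r1, rN, hmem⟩ := unit_jet ⟨hs1, hs.2⟩ ⟨ht1, ht.2⟩ hp hp' hR hH hK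
  have key := hnear (φ, r * 1, s, t, p, p', a, b, r • H, r • K) ⟨hφ, hmem⟩ ?_
  · simp only [Φ, onJets, mul_one] at key
    have e := divJet_smul C.P r 1 s t a b H K
    have e' := levelJet_smul r 1 s t a b H K
    rw [mul_one] at e e'
    rw [e, e'] at key
    have h3 : r ^ 2 * (-(ε * jetSize 1 H K)) ≤ r ^ 2 * (divJet C.P 1 s t a b H K +
        (C.k (pt s t a b) + φ * C.k₁ (pt s t a b)) * levelJet 1 s t a b H K + (κ - G s t)) := by
      have : r ^ 2 * (-(ε * jetSize 1 H K)) = -ε * (r ^ 2 * jetSize 1 H K) := by ring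
      rw [this, rN]
      linarith
    linarith [le_of_mul_le_mul_left h3 (by positivity)]
  · simp only [ψ, onJets, Matrix.trace_smul, smul_eq_mul, mul_one, ← mul_sub, abs_mul,
      abs_of_pos r0]
    have u1 := mul_le_mul r1 h1 (abs_nonneg _) zero_le_one
    have u2 := mul_le_mul r1 h2 (abs_nonneg _) zero_le_one
    have u3 : max (-s) 0 ≤ d / 11 := max_le (by linarith [hs.1]) (by linarith)
    have u4 : max (-t) 0 ≤ d / 11 := max_le (by linarith [ht.1]) (by linarith)
    have u5 : max (p - φ * eC s) 0 ≤ d / 11 := max_le (by linarith) (by linarith)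
    have u6 : max (p' - φ * eC t) 0 ≤ d / 11 := max_le (by linarith) (by linarith)
    linarith

/-- On jets with relatively small traces the divergence is nearly nonnegative. -/
theorem recession_nearly (M : ℝ) {ε : ℝ} (hε : 0 < ε) :
    ∃ d > 0, ∀ (s t : ℝ) (a b : Fin 4 → ℝ) (H K : Matrix (Fin 4) (Fin 4) ℝ),
      H.IsSymm → K.IsSymm → s ∈ Set.Icc (-d) 3 → t ∈ Set.Icc (-d) 3 → -1 ≤ s → -1 ≤ t →
      a ⬝ᵥ a + b ⬝ᵥ b ≤ M → qC s + qC t ≤ 2 + d →
      1 + H.trace ^ 2 + K.trace ^ 2 ≤ d * jetSize 1 H K →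
        -(ε * jetSize 1 H K) ≤ divJet C.P 1 s t a b H K := by
  have := continuous_qC
  let ψ := onJets fun c s t _ _ _ _ H K => c ^ 2 + H.trace ^ 2 + K.trace ^ 2 +
    (max (-s) 0 + max (-t) 0 + max (qC s + qC t - 2) 0)
  let Φ := onJets fun c s t _ _ a b H K => divJet C.P c s t a b H K
  have hzero : ∀ z ∈ jetBox 0 M, ψ z = 0 → 0 ≤ Φ z := by
    intro z hz h0
    obtain ⟨c, s, t, p, p', a, b, H, K⟩ := z
    obtain ⟨-, -, -, -, -, -, hH, hK, -⟩ := hz
    simp only [ψ, Φ, onJets] at h0 hH hK ⊢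
    have a1 := sq_nonneg c
    have a2 := sq_nonneg H.trace
    have a2' := sq_nonneg K.trace
    have a3 := le_max_left (-s) 0
    have a4 := le_max_left (-t) 0
    have a5 := le_max_left (qC s + qC t - 2) 0
    have a6 := le_max_right (-s) 0
    have a7 := le_max_right (-t) 0
    have a8 := le_max_right (qC s + qC t - 2) 0
    obtain rfl : c = 0 := pow_eq_zero_iff two_ne_zero |>.1 (by linarith)
    exact C.recession hH hK (by linarith) (by linarith) (by linarith)
      (pow_eq_zero_iff two_ne_zero |>.1 (by linarith)) (pow_eq_zero_iff two_ne_zero |>.1 (by linarith))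
  obtain ⟨d, hd, hnear⟩ := nearly (isCompact_jetBox 0 M) (ψ := ψ) (Φ := Φ)
    (by simp only [ψ]; unfold onJets; fun_prop) C.continuous_div
    (fun z => by simp only [ψ, onJets]; positivity) hzero hε
  refine ⟨d / 8, by positivity, fun s t a b H K hH hK hs ht hs1 ht1 hR hL htr => ?_⟩
  obtain ⟨r, r0, r1, rN, hmem⟩ := unit_jet (T := 0) (p := 0) (p' := 0) ⟨hs1, hs.2⟩ ⟨ht1, ht.2⟩
    ⟨le_rfl, le_rfl⟩ ⟨le_rfl, le_rfl⟩ hR hH hK
  have key := hnear _ hmem ?_
  · simp only [Φ, onJets, mul_one] at key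
    have e := divJet_smul C.P r 1 s t a b H K
    rw [mul_one] at e
    rw [e] at key
    have h3 : r ^ 2 * (-(ε * jetSize 1 H K)) ≤ r ^ 2 * divJet C.P 1 s t a b H K := by
      have : r ^ 2 * (-(ε * jetSize 1 H K)) = -ε * (r ^ 2 * jetSize 1 H K) := by ring
      rw [this, rN]
      linarith
    exact le_of_mul_le_mul_left h3 (by positivity)
  · simp only [ψ, onJets, Matrix.trace_smul, smul_eq_mul, mul_one, mul_pow]
    have u1 : r ^ 2 * (1 + H.trace ^ 2 + K.trace ^ 2) ≤ d / 8 := by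
      have := mul_le_mul_of_nonneg_left htr (sq_nonneg r)
      rwa [mul_left_comm, rN, mul_one] at this
    have u3 : max (-s) 0 ≤ d / 8 := max_le (by linarith [hs.1]) (by linarith)
    have u4 : max (-t) 0 ≤ d / 8 := max_le (by linarith [ht.1]) (by linarith)
    have u5 : max (qC s + qC t - 2) 0 ≤ d / 8 := max_le (by linarith) (by linarith)
    linarith

end Cert

end

end Vale.Agent.P211.Analytic
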