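import Mathlib
import Vale.Agent.P211.Analytic.Passage.Jet
import Vale.Agent.P211.Analytic.Limit

/-!
P211, module F (note 1326): the cut-off of large gradients and the bounds it gives on the
divergence of the cut fields and on the tested multiplier of the constraint.
-/

open Matrix Filter Topology
open scoped ContDiff

namespace Vale.Agent.P211.Analytic

noncomputable section

/-- A bound on the derivative of the smooth step. -/
lemma exists_step_bound :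
    ∃ c₀ : ℝ, 0 ≤ c₀ ∧ (∀ u, |deriv Real.smoothTransition u| ≤ c₀) ∧
      (∀ u, u < 0 ∨ 1 < u → deriv Real.smoothTransition u = 0) := by
  have hc : Continuous (deriv Real.smoothTransition) :=
    (contDiff_infty_iff_deriv.1 (Real.smoothTransition.contDiff : ContDiff ℝ ∞ Real.smoothTransition)).2.continuous
  obtain ⟨c, hb⟩ := (isCompact_Icc (a := (0 : ℝ)) (b := 1)).exists_bound_of_continuousOn hc.continuousOn
  have hz : ∀ u, u < 0 ∨ 1 < u → deriv Real.smoothTransition u = 0 := by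
    rintro u (h | h)
    · have e : Real.smoothTransition =ᶠ[𝓝 u] fun _ => (0 : ℝ) := by
        filter_upwards [Iio_mem_nhds h] with v hv
        exact Real.smoothTransition.zero_of_nonpos (Set.mem_Iio.1 hv).le
      simp [e.deriv_eq]
    · have e : Real.smoothTransition =ᶠ[𝓝 u] fun _ => (1 : ℝ) := by
        filter_upwards [Ioi_mem_nhds h] with v hv
        exact Real.smoothTransition.one_of_one_le (Set.mem_Ioi.1 hv).le
      simp [e.deriv_eq]
  refine ⟨max c 0, le_max_right _ _, fun u => ?_, hz⟩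
  by_cases h : u ∈ Set.Icc (0 : ℝ) 1
  · exact ((Real.norm_eq_abs _).symm.trans_le (hb u h)).trans (le_max_left _ _)
  · rw [Set.mem_Icc, not_and_or, not_le, not_le] at h
    simp [hz u h]

/-- A coefficient cut off at large gradients. -/
def cutMul (M : ℝ) (Φ : (Fin 5 → ℝ) → ℝ) (y : Fin 5 → ℝ) : ℝ :=
  Real.smoothTransition (3 - 2 * (y 2 + y 3) / M) * Φ y

lemma contDiff_cutMul (M : ℝ) {Φ : (Fin 5 → ℝ) → ℝ} (h : ContDiff ℝ ∞ Φ) :
    ContDiff ℝ ∞ (cutMul M Φ) := by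
  unfold cutMul
  exact (Real.smoothTransition.contDiff.comp (by fun_prop)).mul h

lemma part_cutMul (M : ℝ) {Φ : (Fin 5 → ℝ) → ℝ} (h : ContDiff ℝ ∞ Φ) (j : Fin 5) (y : Fin 5 → ℝ) :
    part (cutMul M Φ) j y = Real.smoothTransition (3 - 2 * (y 2 + y 3) / M) * part Φ j y +
      Φ y * (deriv Real.smoothTransition (3 - 2 * (y 2 + y 3) / M) *
        (-(2 / M) * ((Pi.single j (1 : ℝ) : Fin 5 → ℝ) 2 + (Pi.single j (1 : ℝ) : Fin 5 → ℝ) 3))) := by
  have hl : HasFDerivAt (fun z : Fin 5 → ℝ => 3 + -(2 / M) * (z 2 + z 3))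
      ((-(2 / M)) • (ContinuousLinearMap.proj (R := ℝ) (φ := fun _ : Fin 5 => ℝ) 2 +
        ContinuousLinearMap.proj (R := ℝ) (φ := fun _ : Fin 5 => ℝ) 3)) y :=
    (((hasFDerivAt_apply (𝕜 := ℝ) (2 : Fin 5) y).add
      (hasFDerivAt_apply (𝕜 := ℝ) (3 : Fin 5) y)).const_mul (-(2 / M))).const_add 3
  have he : (fun z : Fin 5 → ℝ => 3 - 2 * (z 2 + z 3) / M) = fun z => 3 + -(2 / M) * (z 2 + z 3) := by
    funext z; ring
  rw [← he] at hl
  have hσ := ((Real.smoothTransition.contDiff : ContDiff ℝ ∞ Real.smoothTransition).differentiable (by simp)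
    (3 - 2 * (y 2 + y 3) / M)).hasDerivAt.comp_hasFDerivAt y hl
  have hm := hσ.mul (h.differentiable (by simp) y).hasFDerivAt
  rw [part, HasFDerivAt.fderiv (f := cutMul M Φ) hm]
  simp [part]
  ring

/-- Where the gradients are moderate nothing is cut, and where they are large all is. -/
lemma cutMul_eq {M : ℝ} (hM : 0 < M) {Φ : (Fin 5 → ℝ) → ℝ} (h : ContDiff ℝ ∞ Φ) (y : Fin 5 → ℝ) :
    (y 2 + y 3 ≤ M / 2 → cutMul M Φ y = Φ y ∧ ∀ j, part (cutMul M Φ) j y = part Φ j y) ∧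
      (2 * M ≤ y 2 + y 3 → cutMul M Φ y = 0 ∧ ∀ j, part (cutMul M Φ) j y = 0) := by
  obtain ⟨c₀, -, -, hz⟩ := exists_step_bound
  constructor
  · intro hy
    have h2 : 2 ≤ 3 - 2 * (y 2 + y 3) / M := by
      rw [le_sub_comm, div_le_iff₀ hM]; linarith
    have e1 := Real.smoothTransition.one_of_one_le (show 1 ≤ 3 - 2 * (y 2 + y 3) / M by linarith)
    exact ⟨by rw [cutMul, e1, one_mul], fun j => by
      rw [part_cutMul M h, e1, hz _ (Or.inr (by linarith))]; ring⟩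
  · intro hy
    have h2 : 3 - 2 * (y 2 + y 3) / M < 0 := by
      rw [sub_neg, lt_div_iff₀ hM]; linarith
    have e1 := Real.smoothTransition.zero_of_nonpos h2.le
    exact ⟨by rw [cutMul, e1, zero_mul], fun j => by
      rw [part_cutMul M h, e1, hz _ (Or.inl h2)]; ring⟩

/-- The cut does not spoil the bounds. -/
lemma exists_cut_bound : ∃ c₁ : ℝ, 1 ≤ c₁ ∧ ∀ {M B : ℝ}, 1 ≤ M → ∀ {Φ : (Fin 5 → ℝ) → ℝ},
    ContDiff ℝ ∞ Φ → ∀ y : Fin 5 → ℝ, |Φ y| ≤ B → (∀ j, |part Φ j y| ≤ B) →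
      |cutMul M Φ y| ≤ c₁ * B ∧ ∀ j, |part (cutMul M Φ) j y| ≤ c₁ * B := by
  obtain ⟨c₀, h0, hb, -⟩ := exists_step_bound
  refine ⟨1 + 2 * c₀, by linarith, fun {M B} hM {Φ} h y hv hp => ?_⟩
  have hB : 0 ≤ B := (abs_nonneg _).trans hv
  have hσ : |Real.smoothTransition (3 - 2 * (y 2 + y 3) / M)| ≤ 1 := by
    rw [abs_of_nonneg (Real.smoothTransition.nonneg _)]
    exact Real.smoothTransition.le_one _
  constructor
  · rw [cutMul, abs_mul]
    have := mul_le_mul hσ hv (abs_nonneg _) zero_le_one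
    nlinarith [mul_nonneg h0 hB]
  · intro j
    have hj : |-(2 / M) * ((Pi.single j (1 : ℝ) : Fin 5 → ℝ) 2 + (Pi.single j (1 : ℝ) : Fin 5 → ℝ) 3)| ≤ 2 := by
      have h2 : 2 / M ≤ 2 := by rw [div_le_iff₀ (by linarith)]; linarith
      have h3 : 0 ≤ 2 / M := by positivity
      rw [abs_mul, abs_neg, abs_of_nonneg h3]
      have : |(Pi.single j (1 : ℝ) : Fin 5 → ℝ) 2 + (Pi.single j (1 : ℝ) : Fin 5 → ℝ) 3| ≤ 1 := by
        fin_cases j <;> simp
      nlinarith [abs_nonneg ((Pi.single j (1 : ℝ) : Fin 5 → ℝ) 2 + (Pi.single j (1 : ℝ) : Fin 5 → ℝ) 3)]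
    rw [part_cutMul M h]
    refine (abs_add_le _ _).trans ?_
    rw [abs_mul, abs_mul, abs_mul]
    have e1 := mul_le_mul hσ (hp j) (abs_nonneg _) zero_le_one
    have e2 := mul_le_mul hv (mul_le_mul (hb (3 - 2 * (y 2 + y 3) / M)) hj (abs_nonneg _) h0)
      (by positivity) hB
    nlinarith

/-- A differential of a coefficient against any vector. -/
lemma abs_diffJet_dot_le {Φ : (Fin 5 → ℝ) → ℝ} {s t B l : ℝ} {a b : Fin 4 → ℝ} (hl : 0 < l)
    (hΦ : ∀ j, |part Φ j (pt s t a b)| ≤ B) (c : ℝ) (H K : Matrix (Fin 4) (Fin 4) ℝ) (v : Fin 4 → ℝ) :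
    |diffJet Φ c s t a b H K ⬝ᵥ v| ≤
      5 * B / 2 * (l * (4 * ((a ⬝ᵥ a + b ⬝ᵥ b) * jetSize c H K)) + v ⬝ᵥ v / l) := by
  have ha := dot_self_nonneg a
  have hb := dot_self_nonneg b
  have hH : mdot H H ≤ jetSize c H K := by rw [jetSize]; linarith [sq_nonneg c, mdot_nonneg K]
  have hK : mdot K K ≤ jetSize c H K := by rw [jetSize]; linarith [sq_nonneg c, mdot_nonneg H]
  have hB : 0 ≤ B := (abs_nonneg _).trans (hΦ 0)
  have haR : a ⬝ᵥ a ≤ a ⬝ᵥ a + b ⬝ᵥ b := le_add_of_nonneg_right hb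
  have hbR : b ⬝ᵥ b ≤ a ⬝ᵥ a + b ⬝ᵥ b := le_add_of_nonneg_left ha
  set Q := (a ⬝ᵥ a + b ⬝ᵥ b) * jetSize c H K with hQ
  have one : ∀ (r : ℝ) (u : Fin 4 → ℝ), |r| ≤ B → u ⬝ᵥ u ≤ 4 * Q →
      |(r • u) ⬝ᵥ v| ≤ B / 2 * (l * (4 * Q) + v ⬝ᵥ v / l) := fun r u hr hu => by
    rw [smul_dotProduct, smul_eq_mul, abs_mul]
    have h1 := abs_dot_le (l • u) v
    rw [smul_dotProduct, smul_eq_mul, abs_mul, abs_of_pos hl, smul_dot_self] at h1
    have h2 : |u ⬝ᵥ v| ≤ (l * (4 * Q) + v ⬝ᵥ v / l) / 2 := by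
      rw [le_div_iff₀ two_pos]
      refine le_of_mul_le_mul_left ?_ hl
      rw [mul_add, mul_div_cancel₀ _ hl.ne']
      have := mul_le_mul_of_nonneg_left hu (sq_nonneg l)
      nlinarith
    exact (mul_le_mul hr h2 (abs_nonneg _) hB).trans_eq (by ring)
  have h0 := one _ _ (hΦ 0) (smul_self_le (c := c) (H := H) (K := K) haR)
  have h1 := one _ _ (hΦ 1) (smul_self_le (c := c) (H := H) (K := K) hbR)
  have h2 := one _ ((2 : ℝ) • (H *ᵥ a)) (hΦ 2)
    (by rw [smul_dot_self]; linarith [(apply_self_le haR hH).1])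
  have h3 := one _ ((2 : ℝ) • (K *ᵥ b)) (hΦ 3)
    (by rw [smul_dot_self]; linarith [(apply_self_le hbR hK).1])
  have h4 := one _ (H *ᵥ b + K *ᵥ a) (hΦ 4) ((dot_add_self_le _ _).1.trans
    (by linarith [(apply_self_le hbR hH).1, (apply_self_le haR hK).1]))
  simp only [diffJet, add_dotProduct]
  rw [abs_le] at h0 h1 h2 h3 h4 ⊢
  constructor <;> linarith [h0.1, h0.2, h1.1, h1.2, h2.1, h2.2, h3.1, h3.2, h4.1, h4.2]

/-- A vector against the vectors of the six fields. -/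
lemma abs_dot_vecPart_le {l : ℝ} (hl : 0 < l) (a b : Fin 4 → ℝ) (H K : Matrix (Fin 4) (Fin 4) ℝ)
    (v : Fin 4 → ℝ) (i : Fin 6) :
    |v ⬝ᵥ vecPart 1 a b H K i| ≤
      (l * (10 * ((a ⬝ᵥ a + b ⬝ᵥ b) * jetSize 1 H K)) + v ⬝ᵥ v / l) / 2 := by
  have hH : mdot H H ≤ jetSize 1 H K := by rw [jetSize]; linarith [mdot_nonneg K]
  have hK : mdot K K ≤ jetSize 1 H K := by rw [jetSize]; linarith [mdot_nonneg H]
  have haR : a ⬝ᵥ a ≤ a ⬝ᵥ a + b ⬝ᵥ b := le_add_of_nonneg_right (dot_self_nonneg b)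
  have hbR : b ⬝ᵥ b ≤ a ⬝ᵥ a + b ⬝ᵥ b := le_add_of_nonneg_left (dot_self_nonneg a)
  have hQ : 0 ≤ (a ⬝ᵥ a + b ⬝ᵥ b) * jetSize 1 H K :=
    mul_nonneg ((dot_self_nonneg a).trans haR) ((mdot_nonneg H).trans hH)
  have hu : vecPart 1 a b H K i ⬝ᵥ vecPart 1 a b H K i ≤
      10 * ((a ⬝ᵥ a + b ⬝ᵥ b) * jetSize 1 H K) := by
    fin_cases i
    · exact (smul_self_le (H := H) (K := K) haR).trans (by linarith)
    · exact (smul_self_le (H := H) (K := K) hbR).trans (by linarith)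
    · exact (apply_self_le haR hH).2
    · exact (apply_self_le hbR hK).2
    · exact (apply_self_le hbR hH).2
    · exact (apply_self_le haR hK).2
  have h1 := abs_dot_le v (l • vecPart 1 a b H K i)
  rw [dotProduct_smul, smul_eq_mul, abs_mul, abs_of_pos hl, smul_dot_self] at h1
  rw [le_div_iff₀ two_pos]
  refine le_of_mul_le_mul_left ?_ hl
  rw [mul_add, mul_div_cancel₀ _ hl.ne']
  nlinarith [mul_le_mul_of_nonneg_left hu (sq_nonneg l)]

/-- The Laplacian of the constraint on a jet is controlled by the traces. -/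
lemma abs_levelJet_le {s t : ℝ} (hs : |s| ≤ 9 / 4) (ht : |t| ≤ 9 / 4) (a b : Fin 4 → ℝ)
    (H K : Matrix (Fin 4) (Fin 4) ℝ) :
    |levelJet 1 s t a b H K| ≤
      64 * (1 + (a ⬝ᵥ a + b ⬝ᵥ b)) * (1 + H.trace ^ 2 + K.trace ^ 2) := by
  have ha := dot_self_nonneg a
  have hb := dot_self_nonneg b
  obtain ⟨s0, -, s7, s1, s3⟩ := eC_bound s
  obtain ⟨t0, -, t7, t1, t3⟩ := eC_bound t
  have e1 : |eC s * H.trace| ≤ 7 * ((1 + H.trace ^ 2) / 2) := by
    rw [abs_mul, abs_of_nonneg s0]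
    exact mul_le_mul (s7 (abs_le.1 hs).2) (by nlinarith [sq_nonneg (|H.trace| - 1), sq_abs H.trace])
      (abs_nonneg _) (by norm_num)
  have e2 : |eC t * K.trace| ≤ 7 * ((1 + K.trace ^ 2) / 2) := by
    rw [abs_mul, abs_of_nonneg t0]
    exact mul_le_mul (t7 (abs_le.1 ht).2) (by nlinarith [sq_nonneg (|K.trace| - 1), sq_abs K.trace])
      (abs_nonneg _) (by norm_num)
  have e3 : |eC₁ s * (a ⬝ᵥ a)| ≤ 3 * (a ⬝ᵥ a) := by
    rw [abs_of_nonneg (mul_nonneg s1 ha)]; exact mul_le_mul_of_nonneg_right s3 ha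
  have e4 : |eC₁ t * (b ⬝ᵥ b)| ≤ 3 * (b ⬝ᵥ b) := by
    rw [abs_of_nonneg (mul_nonneg t1 hb)]; exact mul_le_mul_of_nonneg_right t3 hb
  have hT : 0 ≤ H.trace ^ 2 + K.trace ^ 2 := by positivity
  have hp := mul_nonneg (add_nonneg ha hb) hT
  rw [levelJet, abs_le]
  rw [abs_le] at e1 e2 e3 e4
  constructor <;> linarith [e1.1, e1.2, e2.1, e2.2, e3.1, e3.2, e4.1, e4.2]

end

end Vale.Agent.P211.Analytic
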