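import Mathlib
import Vale.Agent.P211.Analytic.Passage.Jet
import Vale.Agent.P211.Analytic.Limit

/-!
P211, module F (note 1326): on an almost solution the divergence of the six weighted fields has
integral zero (Green and the integrated Bochner formula).
-/

open MeasureTheory Matrix
open scoped ContDiff

namespace Vale.Agent.P211.Analytic

noncomputable section

variable {X : Type*} [TopologicalSpace X] [MeasurableSpace X] {S : ScalarGeom X}

namespace ScalarGeom

variable (S : ScalarGeom X)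

/-- The Hessian on two differentials, by first derivatives of inner products. -/
lemma hess_dot {u v w : X → ℝ} (hu : S.Smooth u) (hv : S.Smooth v) (hw : S.Smooth w) (x : X) :
    S.grad w x ⬝ᵥ (S.hess u x *ᵥ S.grad v x) =
      (S.ip w (S.ip u v) x + S.ip v (S.ip u w) x - S.ip u (S.ip v w) x) / 2 := by
  have sym : ∀ {f : X → ℝ}, S.Smooth f → ∀ a b : Fin 4 → ℝ,
      a ⬝ᵥ (S.hess f x *ᵥ b) = b ⬝ᵥ (S.hess f x *ᵥ a) := fun {f} hf a b => by
    have h := S.hess_symm hf x
    calc a ⬝ᵥ (S.hess f x *ᵥ b) = (a ᵥ* S.hess f x) ⬝ᵥ b := dotProduct_mulVec _ _ _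
      _ = b ⬝ᵥ ((S.hess f x).transpose *ᵥ a) := by rw [dotProduct_comm, mulVec_transpose]
      _ = _ := by rw [h]
  have e : ∀ {p q : X → ℝ}, S.Smooth p → S.Smooth q → ∀ r : X → ℝ, S.ip r (S.ip p q) x =
      S.grad r x ⬝ᵥ (S.hess p x *ᵥ S.grad q x) + S.grad r x ⬝ᵥ (S.hess q x *ᵥ S.grad p x) :=
    fun {p q} hp hq r => by
      show S.grad r x ⬝ᵥ S.grad (fun y => S.grad p y ⬝ᵥ S.grad q y) x = _
      rw [S.grad_ip hp hq, dotProduct_add]
  rw [e hu hv, e hu hw, e hv hw]
  linarith [sym hv (S.grad w x) (S.grad u x), sym hu (S.grad w x) (S.grad v x),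
    sym hw (S.grad v x) (S.grad u x)]

lemma continuous_hess_dot {u v w : X → ℝ} (hu : S.Smooth u) (hv : S.Smooth v) (hw : S.Smooth w) :
    Continuous fun x => S.grad w x ⬝ᵥ (S.hess u x *ᵥ S.grad v x - S.lap u x • S.grad v x) := by
  simp only [dotProduct_sub, dotProduct_smul, smul_eq_mul, S.hess_dot hu hv hw]
  have c1 := S.continuous_ip hw (S.smooth_ip hu hv)
  have c2 := S.continuous_ip hv (S.smooth_ip hu hw)
  have c3 := S.continuous_ip hu (S.smooth_ip hv hw)
  exact (((c1.add c2).sub c3).div_const 2).sub ((S.continuous_lap hu).mul (S.continuous_ip hw hv))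

end ScalarGeom

namespace Approx

variable (A : Approx S)

/-- The five scalars as functions. -/
def fld : Fin 5 → X → ℝ := ![A.f, A.g, S.ip A.f A.f, S.ip A.g A.g, S.ip A.f A.g]

/-- The point of the five scalars. -/
def jetPt (x : X) : Fin 5 → ℝ := pt (A.f x) (A.g x) (S.grad A.f x) (S.grad A.g x)

lemma smooth_fld (i : Fin 5) : S.Smooth (A.fld i) := by
  fin_cases i
  exacts [A.smooth_f, A.smooth_g, S.smooth_ip A.smooth_f A.smooth_f,
    S.smooth_ip A.smooth_g A.smooth_g, S.smooth_ip A.smooth_f A.smooth_g]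

lemma fld_eq (x : X) : (fun i => A.fld i x) = A.jetPt x := by
  funext i
  fin_cases i <;> rfl

lemma smooth_coef {Φ : (Fin 5 → ℝ) → ℝ} (h : ContDiff ℝ ∞ Φ) :
    S.Smooth fun x => Φ (A.jetPt x) := by
  simp only [← A.fld_eq]
  exact S.smooth_comp A.fld Φ A.smooth_fld h

lemma grad_coef {Φ : (Fin 5 → ℝ) → ℝ} (h : ContDiff ℝ ∞ Φ) (x : X) :
    S.grad (fun y => Φ (A.jetPt y)) x = diffJet Φ 1 (A.f x) (A.g x) (S.grad A.f x) (S.grad A.g x)
      (S.hess A.f x) (S.hess A.g x) := by
  simp only [← A.fld_eq]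
  rw [S.grad_comp A.fld Φ A.smooth_fld h, A.fld_eq, Fin.sum_univ_five]
  have e0 : A.fld 0 = A.f := rfl
  have e1 : A.fld 1 = A.g := rfl
  have e2 : A.fld 2 = fun y => S.grad A.f y ⬝ᵥ S.grad A.f y := rfl
  have e3 : A.fld 3 = fun y => S.grad A.g y ⬝ᵥ S.grad A.g y := rfl
  have e4 : A.fld 4 = fun y => S.grad A.f y ⬝ᵥ S.grad A.g y := rfl
  rw [e0, e1, e2, e3, e4, S.grad_ip A.smooth_f A.smooth_f, S.grad_ip A.smooth_g A.smooth_g,
    S.grad_ip A.smooth_f A.smooth_g]
  simp only [diffJet, Approx.jetPt, one_smul, two_smul]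

/-- The divergence of the six fields at a point. -/
def divAt (P : Fin 6 → (Fin 5 → ℝ) → ℝ) (x : X) : ℝ :=
  divJet P 1 (A.f x) (A.g x) (S.grad A.f x) (S.grad A.g x) (S.hess A.f x) (S.hess A.g x)

/-- The six fields paired with the differential of the constraint. -/
def fluxAt (P : Fin 6 → (Fin 5 → ℝ) → ℝ) (x : X) : ℝ :=
  ∑ i, P i (A.jetPt x) *
    (S.grad A.level x ⬝ᵥ vecPart 1 (S.grad A.f x) (S.grad A.g x) (S.hess A.f x) (S.hess A.g x) i)

/-- The scalar and vector parts at a point. -/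
def fieldTerm (q : X → ℝ) (i : Fin 6) (x : X) : ℝ :=
  q x * scalarPart 1 (S.grad A.f x) (S.grad A.g x) (S.hess A.f x) (S.hess A.g x) i +
    S.grad q x ⬝ᵥ vecPart 1 (S.grad A.f x) (S.grad A.g x) (S.hess A.f x) (S.hess A.g x) i

lemma continuous_vec {w : X → ℝ} (hw : S.Smooth w) (i : Fin 6) : Continuous fun x =>
    S.grad w x ⬝ᵥ vecPart 1 (S.grad A.f x) (S.grad A.g x) (S.hess A.f x) (S.hess A.g x) i := by
  fin_cases i <;> simp [vecPart, dotProduct_sub]
  · exact S.continuous_ip hw A.smooth_f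
  · exact S.continuous_ip hw A.smooth_g
  · simpa [dotProduct_sub, ScalarGeom.lap] using S.continuous_hess_dot A.smooth_f A.smooth_f hw
  · simpa [dotProduct_sub, ScalarGeom.lap] using S.continuous_hess_dot A.smooth_g A.smooth_g hw
  · simpa [dotProduct_sub, ScalarGeom.lap] using S.continuous_hess_dot A.smooth_f A.smooth_g hw
  · simpa [dotProduct_sub, ScalarGeom.lap] using S.continuous_hess_dot A.smooth_g A.smooth_f hw

lemma continuous_scalar (i : Fin 6) : Continuous fun x =>
    scalarPart 1 (S.grad A.f x) (S.grad A.g x) (S.hess A.f x) (S.hess A.g x) i := by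
  have h1 := S.continuous_mdot A.smooth_f A.smooth_f
  have h2 := S.continuous_mdot A.smooth_g A.smooth_g
  have h3 := S.continuous_mdot A.smooth_f A.smooth_g
  have h4 : Continuous fun x => (S.hess A.f x).trace := S.continuous_lap A.smooth_f
  have h5 : Continuous fun x => (S.hess A.g x).trace := S.continuous_lap A.smooth_g
  have h6 : Continuous fun x => S.grad A.f x ⬝ᵥ S.grad A.f x := S.continuous_ip A.smooth_f A.smooth_f
  have h7 : Continuous fun x => S.grad A.g x ⬝ᵥ S.grad A.g x := S.continuous_ip A.smooth_g A.smooth_g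
  have h8 : Continuous fun x => S.grad A.f x ⬝ᵥ S.grad A.g x := S.continuous_ip A.smooth_f A.smooth_g
  fin_cases i <;> simp [scalarPart] <;> fun_prop

lemma continuous_fieldTerm {q : X → ℝ} (hq : S.Smooth q) (i : Fin 6) :
    Continuous (A.fieldTerm q i) :=
  ((S.continuous_of_smooth hq).mul (A.continuous_scalar i)).add (A.continuous_vec hq i)

lemma continuous_jetPt : Continuous A.jetPt := by
  refine continuous_pi fun i => ?_
  simp only [← A.fld_eq]
  exact S.continuous_of_smooth (A.smooth_fld i)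

/-- The six fields have divergence of integral zero. -/
lemma integral_fieldTerm [CompactSpace X] [BorelSpace X] {q : X → ℝ} (hq : S.Smooth q) (i : Fin 6) :
    ∫ x, A.fieldTerm q i x ∂S.vol = 0 := by
  have iD := S.integrable ((S.continuous_of_smooth hq).mul (A.continuous_scalar i))
  have iV := S.integrable (A.continuous_vec hq i)
  simp only [fieldTerm]
  rw [integral_add (f := fun x => q x * scalarPart 1 (S.grad A.f x) (S.grad A.g x) (S.hess A.f x)
    (S.hess A.g x) i) iD iV]
  have g1 := S.green A.smooth_f hq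
  have g2 := S.green A.smooth_g hq
  have b1 := S.bochner hq A.smooth_f A.smooth_f
  have b2 := S.bochner hq A.smooth_g A.smooth_g
  have b3 := S.bochner hq A.smooth_f A.smooth_g
  have b4 := S.bochner hq A.smooth_g A.smooth_f
  have hc : ∀ x, mdot (S.hess A.g x) (S.hess A.f x) = mdot (S.hess A.f x) (S.hess A.g x) :=
    fun x => by simp only [mdot, mul_comm]
  simp only [hc, mul_comm (S.hess A.g _).trace (S.hess A.f _).trace,
    dotProduct_comm (S.grad A.g _) (S.grad A.f _)] at b4
  fin_cases i <;> simp [scalarPart, vecPart] at *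
  · linarith
  · linarith
  all_goals linarith

/-- A weight times the fields. -/
lemma fieldTerm_weight {wt : ℝ → ℝ} (hwt : ContDiff ℝ ∞ wt) {P : Fin 6 → (Fin 5 → ℝ) → ℝ}
    (hP : ∀ i, ContDiff ℝ ∞ (P i)) (x : X) :
    ∑ i, A.fieldTerm (fun y => wt (A.level y) * P i (A.jetPt y)) i x =
      wt (A.level x) * A.divAt P x + deriv wt (A.level x) * A.fluxAt P x := by
  simp only [divAt, divJet, fluxAt, Finset.mul_sum, ← Finset.sum_add_distrib]
  refine Finset.sum_congr rfl fun i _ => ?_
  simp only [fieldTerm, divTerm]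
  rw [S.grad_mul (S.smooth_comp₁ A.smooth_level hwt) (A.smooth_coef (hP i)),
    S.grad_comp₁ A.smooth_level hwt, A.grad_coef (hP i)]
  simp only [add_dotProduct, smul_dotProduct, smul_eq_mul, Approx.jetPt]
  ring

/-- The weighted fields have divergence of integral zero. -/
theorem integral_weighted [CompactSpace X] [BorelSpace X] {wt : ℝ → ℝ} (hwt : ContDiff ℝ ∞ wt)
    {P : Fin 6 → (Fin 5 → ℝ) → ℝ} (hP : ∀ i, ContDiff ℝ ∞ (P i)) :
    Continuous (fun x => wt (A.level x) * A.divAt P x + deriv wt (A.level x) * A.fluxAt P x) ∧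
      ∫ x, (wt (A.level x) * A.divAt P x + deriv wt (A.level x) * A.fluxAt P x) ∂S.vol = 0 := by
  have hs : ∀ i, S.Smooth fun y => wt (A.level y) * P i (A.jetPt y) := fun i =>
    S.smooth_mul (S.smooth_comp₁ A.smooth_level hwt) (A.smooth_coef (hP i))
  simp only [← A.fieldTerm_weight hwt hP]
  refine ⟨continuous_finsetSum _ fun i _ => A.continuous_fieldTerm (hs i) i, ?_⟩
  rw [integral_finsetSum _ fun i _ => S.integrable (A.continuous_fieldTerm (hs i) i)]
  exact Finset.sum_eq_zero fun i _ => A.integral_fieldTerm (hs i) i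

end Approx

end

end Vale.Agent.P211.Analytic
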