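import Mathlib
import Vale.Agent.P211.Analytic.Passage.Compact
import Vale.Agent.P211.Analytic.Passage.Cutoff
import Vale.Agent.P211.Analytic.Passage.Identity

/-!
P211, module F (note 1326): the certificate at one point of an almost solution with moderate
gradients, up to the errors whose integrals tend to zero.
-/

open MeasureTheory Matrix
open scoped ContDiff

namespace Vale.Agent.P211.Analytic

noncomputable section

variable {X : Type*} [TopologicalSpace X] [MeasurableSpace X] {S : ScalarGeom X}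

lemma react_lip_wide {a b : ℝ} (ha : a ∈ Set.Icc (-1 : ℝ) 3) (hb : b ∈ Set.Icc (-1 : ℝ) 3) :
    |react a - react b| ≤ 220 * |a - b| := by
  have e : react a - react b = 2 * (1 - (a + b) * (a ^ 2 + b ^ 2)) * (a - b) := by
    unfold react; ring
  rw [e, abs_mul]
  refine mul_le_mul_of_nonneg_right ?_ (abs_nonneg _)
  have h1 : a ^ 2 + b ^ 2 ≤ 18 := by nlinarith [ha.1, ha.2, hb.1, hb.2]
  have h2 : 0 ≤ a ^ 2 + b ^ 2 := by positivity
  rw [abs_le]
  constructor <;> nlinarith [ha.1, ha.2, hb.1, hb.2]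

namespace Approx

variable (A : Approx S)

/-- The sum of the error terms that vanish in the limit. -/
def errSum (x : X) : ℝ :=
  A.below x + A.symm.below x + (A.excess x + A.symm.excess x) +
    (|A.res x| + |A.symm.res x| + max (A.phi x - capLevel) 0)

/-- The energy of the constraint in a thin layer. -/
def layerPart (s : ℝ) (x : X) : ℝ :=
  {y | |A.level y| < s}.indicator (fun y => S.ip A.level A.level y) x

/-- The squared size of the jet of second order. -/
def size₂ (x : X) : ℝ := jetSize 1 (S.hess A.f x) (S.hess A.g x)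

lemma size₂_eq (x : X) : A.size₂ x = 1 + A.hessDensity x := by
  simp only [size₂, jetSize, hessDensity]; ring

lemma one_le_size₂ (x : X) : 1 ≤ A.size₂ x := by
  linarith [A.size₂_eq x, A.hessDensity_nonneg x]

lemma errSum_bounds (x : X) : 0 ≤ A.below x ∧ 0 ≤ A.excess x ∧ 0 ≤ max (A.phi x - capLevel) 0 :=
  ⟨le_max_right _ _, le_max_right _ _, le_max_right _ _⟩

lemma layerPart_nonneg (s : ℝ) (x : X) : 0 ≤ A.layerPart s x :=
  Set.indicator_nonneg (fun _ _ => S.ip_self_nonneg _ _) x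

/-- The first equation as an exact equation with a force `p` and a small error. -/
lemma lap_split (x : X) : ∃ p : ℝ, 0 ≤ p ∧ (A.phi x = 0 → p = 0) ∧
    p ≤ A.phi x * eC (A.f x) ∧ (A.below x = 0 → p = A.phi x * eC (A.f x)) ∧
    |S.lap A.f x - (react (A.f x) - soft (A.f x) (A.g x) + p)| ≤
      220 * (A.below x + A.ε) + A.excess x + |A.res x| := by
  have hε := A.hε
  obtain ⟨hb0, -⟩ := A.below_bounds x
  have hφ := A.phi_bounds x
  have hq0 := (eC_bound (A.f x)).1
  refine ⟨max (A.phi x * eC (A.f x) - A.K * A.below x) 0, le_max_right _ _, ?_, ?_,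
    fun hb => ?_, ?_⟩
  · intro h
    rw [h, zero_mul, zero_sub]
    exact max_eq_right (neg_nonpos.2 (mul_nonneg A.hK0 hb0))
  · exact max_le (by linarith [mul_nonneg A.hK0 hb0]) (mul_nonneg hφ.1 hq0)
  · rw [hb, mul_zero, sub_zero, max_eq_left (mul_nonneg hφ.1 hq0)]
  · have e : max (A.phi x * eC (A.f x) - A.K * A.below x) 0 - A.excess x =
        A.phi x * eC (A.f x) - A.K * A.below x := by
      unfold Approx.excess
      rcases le_total (A.K * A.below x) (A.phi x * eC (A.f x)) with h | h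
      · rw [max_eq_left (sub_nonneg.2 h), max_eq_right (sub_nonpos.2 h), sub_zero]
      · rw [max_eq_right (sub_nonpos.2 h), max_eq_left (sub_nonneg.2 h)]; ring
    have hclip : |max (A.l₁ x) (min (A.f x) 2) - A.f x| ≤ A.below x + A.ε := by
      have h2 : A.l₁ x - A.f x ≤ A.below x := le_max_left _ _
      rw [abs_le]
      refine ⟨?_, ?_⟩
      · rcases le_total (A.f x) 2 with h | h
        · rw [min_eq_left h]; linarith [le_max_right (A.l₁ x) (A.f x), hε.1]
        · rw [min_eq_right h]; linarith [le_max_right (A.l₁ x) 2, (A.band x).1.2]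
      · rw [sub_le_iff_le_add]
        exact max_le (by linarith [hε.1]) ((min_le_left _ _).trans (by linarith [hε.1]))
    have hm := A.clip_mem x
    have hr := (react_lip_wide (⟨by linarith [hm.1], by linarith [hm.2]⟩ :
      max (A.l₁ x) (min (A.f x) 2) ∈ Set.Icc (-1 : ℝ) 3) (A.band₃ x).1).trans
      (mul_le_mul_of_nonneg_left hclip (by norm_num))
    have h6 : 0 ≤ A.excess x := le_max_right _ _
    rw [A.res_eq, abs_le]
    rw [abs_le] at hr
    constructor <;> linarith [neg_abs_le (A.res x), le_abs_self (A.res x)]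

/-- Near the level the softening is negligible. -/
lemma near_trace {x : X} {p d e : ℝ} (hL : -e ≤ qC (A.f x) + qC (A.g x) - 2) (he : e ≤ 1)
    (hed : 14 * e ≤ d / 10) (h : |S.lap A.f x - (react (A.f x) - soft (A.f x) (A.g x) + p)| ≤ 9 / 10 * d) :
    |S.lap A.f x - (react (A.f x) + p)| ≤ d := by
  obtain ⟨c0, c1⟩ := cSoft_mem
  obtain ⟨s0, -⟩ := soft_bound (A.f x) (A.g x)
  set L := max (2 - qC (A.f x) - qC (A.g x)) 0
  have hL0 : 0 ≤ L := le_max_right _ _
  have hLe : L ≤ max e 0 := max_le_max (by linarith) le_rfl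
  have h1 : soft (A.f x) (A.g x) ≤ 1 / 2 * 7 * max e 0 ^ 2 :=
    mul_le_mul (mul_le_mul c1 (A.eC_f_le x) (eC_bound _).1 (by norm_num))
      (pow_le_pow_left₀ hL0 hLe 2) (sq_nonneg _) (by norm_num)
  have h2 : max e 0 ^ 2 ≤ max e 0 := by
    nlinarith [le_max_right e 0, max_le he zero_le_one]
  have h3 : 14 * max e 0 ≤ d / 10 := by
    rcases le_total e 0 with he0 | he0
    · rw [max_eq_right he0]
      linarith [abs_nonneg (S.lap A.f x - (react (A.f x) - soft (A.f x) (A.g x) + p))]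
    · rw [max_eq_left he0]; exact hed
  obtain ⟨a1, a2⟩ := abs_le.1 h
  rw [abs_le]
  constructor <;> linarith [le_max_right e 0]

/-- Below the level there is no penalty; well above it the penalty exceeds its cap. -/
lemma phi_sides {s : ℝ} (hs1 : s ≤ 1) (hεs : A.ε ≤ s / 4)
    (hβs : 2 * (capLevel + 1) ≤ A.β * s) (x : X) :
    (A.level x ≤ -(s / 2) → A.phi x = 0) ∧ (s ≤ A.level x → 1 ≤ max (A.phi x - capLevel) 0) := by
  have hε := A.hε
  have hl := abs_le.1 (A.level_near x)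
  constructor
  · intro h
    rw [Approx.phi, show ramp (qC (A.f x) + qC (A.g x) - 2) = 0 from
      max_eq_left ((min_le_left _ _).trans (by linarith [hl.1])), mul_zero]
  · intro h
    have hr : s / 2 ≤ ramp (qC (A.f x) + qC (A.g x) - 2) :=
      le_max_of_le_right (le_min (by linarith [hl.2]) (by linarith))
    refine le_max_of_le_left ?_
    have := mul_le_mul_of_nonneg_left hr A.hβ0
    unfold Approx.phi
    linarith

/-- A smooth nondecreasing function of the constraint standing for the penalty force up to its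
cap. -/
structure Pen (h : ℝ → ℝ) : Prop where
  smooth : ContDiff ℝ ∞ h
  mono : ∀ t, 0 ≤ deriv h t
  mem : ∀ t, h t ∈ Set.Icc 0 (capLevel + 3)
  near : ∀ x, A.phi x ≤ capLevel + 1 → A.β * A.ε ≤ 1 / 7 → |h (A.level x) - A.phi x| ≤ 7 * (A.β * A.ε)

lemma exists_pen : ∃ h : ℝ → ℝ, A.Pen h := by
  have hε := A.hε
  have hβ := A.hβ0
  have hcap := capLevel_nonneg
  obtain ⟨θ, hθ, hθ', hθ01, hθb⟩ := A.exists_smPhi
  have hθ0 : ∀ s, -A.ε ≤ θ s := fun s => (hθ01 s).1
  have hθn := fun x => (hθb x).1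
  obtain ⟨χ, hχ, hχ', hid, hr, -, -⟩ := exists_clip (show (0 : ℝ) ≤ capLevel + 2 by linarith) one_pos
  set u : ℝ → ℝ := fun s => A.β * θ s + 4 * (A.β * A.ε)
  have hu0 : ∀ s, 0 ≤ u s := fun s => by
    have := mul_le_mul_of_nonneg_left (hθ0 s) hβ
    have := mul_nonneg hβ hε.1.le
    simp only [u]; linarith
  have hu : ContDiff ℝ ∞ u := (contDiff_const.mul hθ).add contDiff_const
  have hχm : Monotone χ :=
    monotone_of_deriv_nonneg (hχ.differentiable (by simp)) fun r => (hχ' r).1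
  have hθm : Monotone θ :=
    monotone_of_deriv_nonneg (hθ.differentiable (by simp)) fun r => (hθ' r).1
  refine ⟨fun s => χ (u s), hχ.comp hu, fun t => Monotone.deriv_nonneg (fun a b hab =>
    hχm (add_le_add (mul_le_mul_of_nonneg_left (hθm hab) hβ) le_rfl)), fun t => ⟨?_, ?_⟩,
    fun x hx h7 => ?_⟩
  · have := hχm (hu0 t)
    rwa [hid 0 ⟨le_rfl, by linarith⟩] at this
  · linarith [(hr (u t)).2]
  · obtain ⟨b1, b2⟩ := abs_le.1 (hθn x)
    show |χ (u (A.level x)) - A.phi x| ≤ _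
    rw [hid _ ⟨hu0 _, by simp only [u]; linarith⟩, abs_le]
    simp only [u]
    constructor <;> linarith [mul_nonneg hβ hε.1.le]

/-- The Laplacian of the constraint, nearly a function of the jet. -/
lemma lap_level_close (x : X) :
    |S.lap A.level x - levelJet 1 (A.f x) (A.g x) (S.grad A.f x) (S.grad A.g x) (S.hess A.f x)
        (S.hess A.g x)| ≤
      3 * A.ε * ((1 + A.energyDensity x) * (1 + S.lap A.f x ^ 2 + S.lap A.g x ^ 2)) := by
  have hε := A.hε.1.le
  have hf := A.qS_near x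
  have hg := A.symm.qS_near x
  simp only [show A.symm.f = A.g from rfl, show A.symm.ε = A.ε from rfl] at hg
  have ha := S.ip_self_nonneg A.f x
  have hb := S.ip_self_nonneg A.g x
  have k : ∀ u v r, u ∈ Set.Icc v (v + A.ε) → |(u - v) * r| ≤ A.ε * |r| := fun u v r hu => by
    rw [abs_mul, abs_of_nonneg (sub_nonneg.2 hu.1)]
    exact mul_le_mul_of_nonneg_right (by linarith [hu.2]) (abs_nonneg r)
  have d1 := abs_le.1 (k _ _ (S.lap A.f x) ⟨hf.2.1.1, hf.2.1.2⟩)
  have d2 := abs_le.1 (k _ _ (S.lap A.g x) ⟨hg.2.1.1, hg.2.1.2⟩)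
  have d3 := abs_le.1 (k _ _ (S.ip A.f A.f x) ⟨hf.2.2.1, hf.2.2.2⟩)
  have d4 := abs_le.1 (k _ _ (S.ip A.g A.g x) ⟨hg.2.2.1, hg.2.2.2⟩)
  rw [abs_of_nonneg ha] at d3
  rw [abs_of_nonneg hb] at d4
  have l1 : |S.lap A.f x| ≤ (1 + S.lap A.f x ^ 2) / 2 := by
    nlinarith [sq_nonneg (|S.lap A.f x| - 1), sq_abs (S.lap A.f x)]
  have l2 : |S.lap A.g x| ≤ (1 + S.lap A.g x ^ 2) / 2 := by
    nlinarith [sq_nonneg (|S.lap A.g x| - 1), sq_abs (S.lap A.g x)]
  have m1 := mul_le_mul_of_nonneg_left l1 hε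
  have m2 := mul_le_mul_of_nonneg_left l2 hε
  have e : A.energyDensity x = S.ip A.f A.f x + S.ip A.g A.g x := rfl
  have m3 : 0 ≤ A.ε * (A.energyDensity x * (S.lap A.f x ^ 2 + S.lap A.g x ^ 2)) := by
    have := A.energyDensity_nonneg x
    positivity
  have m4 : 0 ≤ A.ε * (S.lap A.f x ^ 2 + S.lap A.g x ^ 2) := by positivity
  rw [A.lap_level, levelJet, abs_le]
  simp only [ScalarGeom.lap, ScalarGeom.ip] at *
  constructor <;> nlinarith

/-- The exact differential of the constraint is small with the smooth one. -/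
lemma vec_close {x : X} {e N d : ℝ} (hN : 1 ≤ N)
    (hR : S.grad A.f x ⬝ᵥ S.grad A.f x + S.grad A.g x ⬝ᵥ S.grad A.g x ≤ N)
    (hip : S.ip A.level A.level x ≤ e) (hεe : A.ε ≤ e) (he1 : e ≤ 1) (hd : e * N ≤ d / 10) :
    (eC (A.f x) • S.grad A.f x + eC (A.g x) • S.grad A.g x) ⬝ᵥ
      (eC (A.f x) • S.grad A.f x + eC (A.g x) • S.grad A.g x) ≤ d := by
  obtain ⟨-, ⟨f0, f1⟩, -⟩ := A.qS_near x
  obtain ⟨-, ⟨g0, g1⟩, -⟩ := A.symm.qS_near x
  simp only [show A.symm.f = A.g from rfl, show A.symm.ε = A.ε from rfl] at g0 g1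
  have he0 : 0 ≤ e := A.hε.1.le.trans hεe
  have e' : eC (A.f x) • S.grad A.f x + eC (A.g x) • S.grad A.g x =
      (1 / 3 : ℝ) • S.grad A.level x +
        ((eC (A.f x) - eS A.ε (A.f x)) • S.grad A.f x +
          (eC (A.g x) - eS A.ε (A.g x)) • S.grad A.g x) := by
    rw [A.grad_level]
    module
  rw [e']
  refine (dot_add_self_le _ _).1.trans ?_
  have hip' : S.grad A.level x ⬝ᵥ S.grad A.level x ≤ e := hip
  have h2 := (dot_add_self_le ((eC (A.f x) - eS A.ε (A.f x)) • S.grad A.f x)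
    ((eC (A.g x) - eS A.ε (A.g x)) • S.grad A.g x)).1
  simp only [smul_dot_self] at h2 ⊢
  have sq_small : ∀ u : ℝ, -A.ε ≤ u → u ≤ 0 → u ^ 2 ≤ e := fun u h1 h2 => by nlinarith
  have m1 := mul_le_mul_of_nonneg_right (sq_small _ (by linarith) (sub_nonpos.2 f0))
    (dot_self_nonneg (S.grad A.f x))
  have m2 := mul_le_mul_of_nonneg_right (sq_small _ (by linarith) (sub_nonpos.2 g0))
    (dot_self_nonneg (S.grad A.g x))
  have m3 := mul_le_mul_of_nonneg_left hR he0
  have m4 := le_mul_of_one_le_right he0 hN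
  linarith

end Approx

/-- Replacing the multiplier and the Laplacian of the constraint by nearby ones. -/
lemma multiplier_swap {k k₁ k' k₁' w W Bm η₁ η₂ Lb N l l' : ℝ} (hw : w ∈ Set.Icc 0 W)
    (h0 : |k' - k| ≤ η₁) (h1 : |k₁' - k₁| ≤ η₁) (hk : |k| ≤ Bm) (hk₁ : |k₁| ≤ Bm)
    (hl' : |l'| ≤ Lb * N) (hd : |l' - l| ≤ η₂ * N) :
    (k + w * k₁) * l ≤ (k' + w * k₁') * l' + (1 + W) * (η₁ * Lb + Bm * η₂) * N := by
  have hc : |(k' - k) + w * (k₁' - k₁)| ≤ (1 + W) * η₁ := by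
    refine (abs_add_le _ _).trans ?_
    rw [abs_mul, abs_of_nonneg hw.1]
    have := mul_le_mul hw.2 h1 (abs_nonneg _) (hw.1.trans hw.2)
    linarith
  have hs : |k + w * k₁| ≤ (1 + W) * Bm := by
    refine (abs_add_le _ _).trans ?_
    rw [abs_mul, abs_of_nonneg hw.1]
    have := mul_le_mul hw.2 hk₁ (abs_nonneg _) (hw.1.trans hw.2)
    linarith
  have a1 := mul_le_mul hc hl' (abs_nonneg _) ((abs_nonneg _).trans hc)
  have a2 := mul_le_mul hs hd (abs_nonneg _) ((abs_nonneg _).trans hs)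
  rw [← abs_mul, abs_le] at a1 a2
  linarith [a1.1, a2.1]

namespace Cert

variable {G : ℝ → ℝ → ℝ} {κ : ℝ} (C : Cert G κ (capLevel + 3))

/-- The constant part of the multiplier made nonnegative everywhere. -/
def kS (δ : ℝ) (y : Fin 5 → ℝ) : ℝ := smPos δ (C.k y)

/-- Its slope made nonnegative everywhere. -/
def k₁S (δ : ℝ) (y : Fin 5 → ℝ) : ℝ := smPos δ (C.k₁ y)

/-- Near the contact set the multiplier is nearly nonnegative. -/
lemma k_nearly (M : ℝ) {δ : ℝ} (hδ : 0 < δ) :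
    ∃ d > 0, ∀ (s t : ℝ) (a b : Fin 4 → ℝ), s ∈ Set.Icc (-d) 3 → t ∈ Set.Icc (-d) 3 → -1 ≤ s →
      -1 ≤ t → a ⬝ᵥ a + b ⬝ᵥ b ≤ M → |qC s + qC t - 2| ≤ d →
        -δ ≤ C.k (pt s t a b) ∧ -δ ≤ C.k₁ (pt s t a b) := by
  have := continuous_qC
  let hv : Set (Fin 4 → ℝ) := {a | ∀ i, a i ∈ Set.Icc (-(M + 1)) (M + 1)}
  have hvc : IsCompact hv := isCompact_pi_infinite fun _ => isCompact_Icc
  have hW := (isCompact_Icc (a := (-1 : ℝ)) (b := 3)).prod
    ((isCompact_Icc (a := (-1 : ℝ)) (b := 3)).prod (hvc.prod hvc))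
  let ψ : ℝ × ℝ × (Fin 4 → ℝ) × (Fin 4 → ℝ) → ℝ := fun z =>
    max (-z.1) 0 + max (-z.2.1) 0 + |qC z.1 + qC z.2.1 - 2|
  have hψ : Continuous ψ := by fun_prop
  have hz : ∀ f : (Fin 5 → ℝ) → ℝ, Continuous f →
      (∀ s t a b, 0 ≤ s → 0 ≤ t → qC s + qC t = 2 → 0 ≤ f (pt s t a b)) →
      ∃ d > 0, ∀ z ∈ Set.Icc (-1 : ℝ) 3 ×ˢ Set.Icc (-1 : ℝ) 3 ×ˢ hv ×ˢ hv, ψ z ≤ d →
        -δ ≤ f (pt z.1 z.2.1 z.2.2.1 z.2.2.2) := fun f hf h0 =>
    nearly hW hψ (hf.comp (continuous_pt (by fun_prop) (by fun_prop) (by fun_prop) (by fun_prop)))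
      (fun z => by positivity) (fun z _ h => by
        simp only [ψ] at h
        have a1 := le_max_left (-z.1) 0
        have a2 := le_max_left (-z.2.1) 0
        have a3 := le_max_right (-z.1) 0
        have a4 := le_max_right (-z.2.1) 0
        have a5 := abs_nonneg (qC z.1 + qC z.2.1 - 2)
        exact h0 _ _ _ _ (by linarith) (by linarith)
          (sub_eq_zero.1 (abs_eq_zero.1 (by linarith)))) hδ
  obtain ⟨d, hd, h⟩ := hz C.k C.smooth_k.continuous
    fun s t a b hs ht he => (C.nonneg_k s t a b hs ht he).1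
  obtain ⟨d', hd', h'⟩ := hz C.k₁ C.smooth_k₁.continuous
    fun s t a b hs ht he => (C.nonneg_k s t a b hs ht he).2
  refine ⟨min d d' / 3, by positivity, fun s t a b hs ht hs1 ht1 hR hS => ?_⟩
  have hm : ∀ v : Fin 4 → ℝ, v ⬝ᵥ v ≤ M → v ∈ hv := fun v hv' i => by
    have : v i * v i ≤ M := (Finset.single_le_sum (f := fun j => v j * v j)
      (fun j _ => mul_self_nonneg _) (Finset.mem_univ i)).trans hv'
    constructor <;> nlinarith [mul_self_nonneg (v i - 1), mul_self_nonneg (v i + 1)]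
  have hmem : (s, t, a, b) ∈ Set.Icc (-1 : ℝ) 3 ×ˢ Set.Icc (-1 : ℝ) 3 ×ˢ hv ×ˢ hv :=
    ⟨⟨hs1, hs.2⟩, ⟨ht1, ht.2⟩, hm a (by linarith [dot_self_nonneg b]),
      hm b (by linarith [dot_self_nonneg a])⟩
  have hle : ψ (s, t, a, b) ≤ min d d' := by
    have h0 : 0 ≤ min d d' / 3 := by positivity
    have u1 : max (-s) 0 ≤ min d d' / 3 := max_le (by linarith [hs.1]) h0
    have u2 : max (-t) 0 ≤ min d d' / 3 := max_le (by linarith [ht.1]) h0
    simp only [ψ]
    linarith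
  exact ⟨h _ hmem (hle.trans (min_le_left _ _)), h' _ hmem (hle.trans (min_le_right _ _))⟩

/-- The tested multiplier at a good point differs little from the certified one. -/
lemma multiplier_close (A : Approx S) {x : X} {w δk ε N Bk : ℝ} {q : ℕ}
    (hw : w ∈ Set.Icc 0 (capLevel + 3)) (hδk : 0 < δk)
    (hδ : δk ≤ ε / (8 * ((1 + (capLevel + 3)) * (268 * N)))) (hε : 0 < ε) (hN : 1 ≤ N)
    (hR : S.grad A.f x ⬝ᵥ S.grad A.f x + S.grad A.g x ⬝ᵥ S.grad A.g x + 1 ≤ N)
    (hk : -δk ≤ C.k (A.jetPt x) ∧ -δk ≤ C.k₁ (A.jetPt x))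
    (hεe : A.ε ≤ ε / (48 * ((1 + (capLevel + 3)) * (|Bk| * N ^ q + 1) * N)))
    (h1 : |C.k (A.jetPt x)| ≤
      Bk * (1 + (S.grad A.f x ⬝ᵥ S.grad A.f x + S.grad A.g x ⬝ᵥ S.grad A.g x)) ^ q)
    (h2 : |C.k₁ (A.jetPt x)| ≤
      Bk * (1 + (S.grad A.f x ⬝ᵥ S.grad A.f x + S.grad A.g x ⬝ᵥ S.grad A.g x)) ^ q) :
    (C.k (A.jetPt x) + w * C.k₁ (A.jetPt x)) * levelJet 1 (A.f x) (A.g x) (S.grad A.f x)
        (S.grad A.g x) (S.hess A.f x) (S.hess A.g x) ≤
      (C.kS δk (A.jetPt x) + w * C.k₁S δk (A.jetPt x)) * S.lap A.level x + ε / 2 * A.size₂ x := by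
  have hε0 := A.hε.1
  have hW : 0 ≤ 1 + (capLevel + 3) := by linarith [capLevel_nonneg]
  set T := 1 + S.lap A.f x ^ 2 + S.lap A.g x ^ 2 with hTdef
  have hsize := A.one_le_size₂ x
  have hT : T ≤ 4 * A.size₂ x := by
    have e1 := trace_sq_le (S.hess A.f x)
    have e2 := trace_sq_le (S.hess A.g x)
    simp only [hTdef, ScalarGeom.lap, Approx.size₂, jetSize] at e1 e2 ⊢
    linarith
  have hr : 0 ≤ 1 + (S.grad A.f x ⬝ᵥ S.grad A.f x + S.grad A.g x ⬝ᵥ S.grad A.g x) := by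
    linarith [dot_self_nonneg (S.grad A.f x), dot_self_nonneg (S.grad A.g x)]
  have hR1 : (1 + A.energyDensity x) * T ≤ N * (4 * A.size₂ x) := by
    change (1 + (S.grad A.f x ⬝ᵥ S.grad A.f x + S.grad A.g x ⬝ᵥ S.grad A.g x)) * T ≤ _
    exact mul_le_mul (by linarith) hT (by positivity) (by linarith)
  have hclose : |S.lap A.level x - levelJet 1 (A.f x) (A.g x) (S.grad A.f x) (S.grad A.g x)
      (S.hess A.f x) (S.hess A.g x)| ≤ 12 * A.ε * N * A.size₂ x :=
    (A.lap_level_close x).trans ((mul_le_mul_of_nonneg_left hR1 (by linarith)).trans_eq (by ring))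
  have hjb : |levelJet 1 (A.f x) (A.g x) (S.grad A.f x) (S.grad A.g x) (S.hess A.f x)
      (S.hess A.g x)| ≤ 256 * N * A.size₂ x :=
    (abs_levelJet_le (A.abs_f_le x) (A.abs_g_le x) _ _ _ _).trans (by
      change 64 * (1 + A.energyDensity x) * T ≤ _
      linarith)
  have hlb : |S.lap A.level x| ≤ 268 * N * A.size₂ x := by
    have h12 : 12 * A.ε * N * A.size₂ x ≤ 12 * 1 * N * A.size₂ x := by
      gcongr; linarith [A.hε.2]
    obtain ⟨a1, a2⟩ := abs_le.1 hclose
    obtain ⟨a3, a4⟩ := abs_le.1 hjb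
    rw [abs_le]
    constructor <;> linarith
  have hsm : ∀ r : ℝ, -δk ≤ r → |smPos δk r - r| ≤ 2 * δk := fun r hr => by
    obtain ⟨a1, a2⟩ := smPos_bounds hδk.le r
    have := le_max_left r 0
    have : max r 0 ≤ r + δk := max_le (by linarith) (by linarith)
    rw [abs_le]
    constructor <;> linarith
  have hb := (mul_le_mul_of_nonneg_right (le_abs_self Bk) (pow_nonneg hr q)).trans
    (mul_le_mul_of_nonneg_left (pow_le_pow_left₀ hr
      (show _ ≤ N by linarith) q) (abs_nonneg Bk))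
  have sw := multiplier_swap (N := A.size₂ x) hw (hsm _ hk.1) (hsm _ hk.2) (h1.trans hb)
    (h2.trans hb) hlb hclose
  have u1 := (le_div_iff₀ (show 0 < 8 * ((1 + (capLevel + 3)) * (268 * N)) by
    have := capLevel_nonneg; positivity)).1 hδ
  have u2 := (le_div_iff₀ (show 0 < 48 * ((1 + (capLevel + 3)) * (|Bk| * N ^ q + 1) * N) by
    have := capLevel_nonneg; positivity)).1 hεe
  have u3 : 0 ≤ (1 + (capLevel + 3)) * N * A.ε := by positivity
  have hsl : (1 + (capLevel + 3)) * (2 * δk * (268 * N) + |Bk| * N ^ q * (12 * A.ε * N)) ≤ ε / 2 := by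
    linarith
  have := mul_le_mul_of_nonneg_right hsl (show 0 ≤ A.size₂ x by linarith)
  simp only [Cert.kS, Cert.k₁S]
  linarith

/-- The certificate at a point where all errors are small. -/
theorem good_point (hG : Continuous fun z : ℝ × ℝ => G z.1 z.2) (M : ℝ) {ε : ℝ} (hε : 0 < ε) :
    ∃ δk d₀ : ℝ, 0 < δk ∧ δk ≤ 1 ∧ 0 < d₀ ∧ d₀ ≤ 1 ∧
      ∀ (A : Approx S) (h : ℝ → ℝ) (x : X) (s w : ℝ), A.Pen h →
      A.energyDensity x ≤ M → 0 < s → s ≤ d₀ → A.ε ≤ s / 4 → A.β * A.ε ≤ d₀ →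
      2 * (capLevel + 1) ≤ A.β * s → w ∈ Set.Icc (0 : ℝ) 1 → (A.level x ≤ -s → w = 0) →
      (-(s / 2) < A.level x → w = 1) → A.errSum x ≤ d₀ →
      (A.level x ≤ -s ∨ |A.level x| < s ∧ S.ip A.level A.level x ≤ d₀) →
        G (A.f x) (A.g x) ≤ A.divAt C.P x +
          w * ((C.kS δk (A.jetPt x) + h (A.level x) * C.k₁S δk (A.jetPt x)) * S.lap A.level x) + κ +
          ε * A.size₂ x := by
  obtain ⟨q, Bk, hgr⟩ := C.growth
  set N₀ := 1 + |M| with hN₀
  set Bm := |Bk| * N₀ ^ q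
  have hW : 0 ≤ capLevel + 3 := by linarith [capLevel_nonneg]
  have hN₀1 : 1 ≤ N₀ := by linarith [abs_nonneg M]
  set δk := min 1 (ε / (8 * ((1 + (capLevel + 3)) * (268 * N₀))))
  have hδk : 0 < δk := lt_min one_pos (by positivity)
  obtain ⟨d₁, hd₁, hint⟩ := C.interior_nearly hG M hε
  obtain ⟨d₂, hd₂, hcon⟩ := C.contact_nearly hG M (7 * (capLevel + 2)) (half_pos hε)
  obtain ⟨d₃, hd₃, hk⟩ := C.k_nearly M hδk
  set d := min (min 1 (ε / (48 * ((1 + (capLevel + 3)) * (Bm + 1) * N₀)))) (min d₁ (min d₂ d₃))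
  have hd : 0 < d := lt_min (lt_min one_pos (by positivity)) (lt_min hd₁ (lt_min hd₂ hd₃))
  have hdd₁ : d ≤ d₁ := (min_le_right _ _).trans (min_le_left _ _)
  have hdd₂ : d ≤ d₂ := (min_le_right _ _).trans ((min_le_right _ _).trans (min_le_left _ _))
  have hdd₃ : d ≤ d₃ := (min_le_right _ _).trans ((min_le_right _ _).trans (min_le_right _ _))
  have hd1 : d ≤ 1 := (min_le_left _ _).trans (min_le_left _ _)
  set e₀ := d / (500 * N₀)
  have he₀ : 0 < e₀ := by positivity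
  have heN : e₀ * N₀ = d / 500 := by
    show d / (500 * N₀) * N₀ = d / 500
    field_simp
  have he500 : e₀ ≤ d / 500 := heN ▸ le_mul_of_one_le_right he₀.le hN₀1
  refine ⟨δk, e₀, hδk, min_le_left _ _, he₀, by linarith,
    fun A hf' x s w hpen hR hs hsd hεs hβε hβs hw hw0 hw1 herr hcase => ?_⟩
  have hε0 := A.hε.1
  have hεd : A.ε ≤ d / 500 := by linarith
  obtain ⟨hφ0, hφs⟩ := A.phi_sides (by linarith) hεs hβs x
  obtain ⟨p, hp0, hpz, hp, hpe, hlp⟩ := A.lap_split x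
  obtain ⟨p', hp0', hpz', hp', hpe', hlp'⟩ := A.symm.lap_split x
  obtain ⟨b0, e0, m0⟩ := A.errSum_bounds x
  obtain ⟨b0', e0', -⟩ := A.symm.errSum_bounds x
  have r0 := abs_nonneg (A.res x)
  have r0' := abs_nonneg (A.symm.res x)
  unfold Approx.errSum at herr
  simp only [A.phi_symm] at hpz' hp' hpe'
  change A.symm.below x = 0 → p' = A.phi x * eC (A.g x) at hpe'
  change p' ≤ A.phi x * eC (A.g x) at hp'
  change |S.lap A.g x - (react (A.g x) - soft (A.g x) (A.f x) + p')| ≤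
    220 * (A.symm.below x + A.ε) + A.symm.excess x + |A.symm.res x| at hlp'
  have small : |S.lap A.f x - (react (A.f x) - soft (A.f x) (A.g x) + p)| ≤ 9 / 10 * d ∧
      |S.lap A.g x - (react (A.g x) - soft (A.g x) (A.f x) + p')| ≤ 9 / 10 * d :=
    ⟨by linarith, by linarith⟩
  obtain ⟨n1, n2⟩ := abs_le.1 (A.level_near x)
  have hband : ∀ D : ℝ, d ≤ D → A.f x ∈ Set.Icc (-D) 3 ∧ A.g x ∈ Set.Icc (-D) 3 := fun D hD => by
    have := A.band x
    exact ⟨⟨by linarith [this.1.1], (A.band₃ x).1.2⟩, ⟨by linarith [this.2.1], (A.band₃ x).2.2⟩⟩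
  have hsymf := S.hess_symm A.smooth_f x
  have hsymg := S.hess_symm A.smooth_g x
  have hR' : S.grad A.f x ⬝ᵥ S.grad A.f x + S.grad A.g x ⬝ᵥ S.grad A.g x ≤ M := hR
  -- the interior form, where the penalty vanishes
  have int0 : A.level x ≤ -(s / 2) → G (A.f x) (A.g x) ≤ A.divAt C.P x + κ + ε * A.size₂ x := by
    intro h
    have z := hpz (hφ0 h)
    have z' := hpz' (hφ0 h)
    refine hint _ _ _ _ _ _ hsymf hsymg (hband _ hdd₁).1 (hband _ hdd₁).2 (A.band₃ x).1.1
      (A.band₃ x).2.1 hR' (by linarith) ?_ ?_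
    · have := small.1; rw [z, add_zero] at this
      exact this.trans (by linarith)
    · have := small.2; rw [z', add_zero] at this
      exact this.trans (by linarith)
  rcases le_or_gt (A.level x) (-s) with hl | hl
  · rw [hw0 hl, zero_mul, add_zero]
    exact int0 (by linarith)
  obtain ⟨hlev, hip⟩ := hcase.resolve_left (not_le.2 hl)
  have hlev' : |qC (A.f x) + qC (A.g x) - 2| ≤ d := by
    obtain ⟨l1, l2⟩ := abs_lt.1 hlev
    rw [abs_le]
    constructor <;> linarith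
  have hlow : -(2 * e₀) ≤ qC (A.f x) + qC (A.g x) - 2 := by linarith [(abs_lt.1 hlev).1]
  have near₁ := A.near_trace hlow (by linarith) (by linarith) small.1
  have near₂ := A.symm.near_trace (x := x) (e := 2 * e₀) (d := d) (p := p')
    (hlow.trans_eq (by simp only [Approx.symm]; ring)) (by linarith) (by linarith) small.2
  have con : G (A.f x) (A.g x) ≤ A.divAt C.P x +
      (C.kS δk (A.jetPt x) + hf' (A.level x) * C.k₁S δk (A.jetPt x)) * S.lap A.level x + κ +
      ε * A.size₂ x := by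
    have hφ := A.phi_bounds x
    have hcap0 := capLevel_nonneg
    have hφc : A.phi x ≤ capLevel + d / 500 := by linarith [le_max_left (A.phi x - capLevel) 0]
    have hnear := hpen.near x (by linarith) (by linarith)
    set w' := hf' (A.level x)
    have hmem := hpen.mem (A.level x)
    have hee : eC (A.f x) ≤ 7 ∧ eC (A.g x) ≤ 7 := ⟨A.eC_f_le x, A.symm.eC_f_le x⟩
    have hee0 : 0 ≤ eC (A.f x) ∧ 0 ≤ eC (A.g x) := ⟨(eC_bound _).1, (eC_bound _).1⟩
    have hshift : ∀ u : ℝ, 0 ≤ u → u ≤ 7 → |w' * u - A.phi x * u| ≤ 49 * (d / 500) := fun u u0 u7 => by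
      rw [← sub_mul, abs_mul, abs_of_nonneg u0]
      exact (mul_le_mul hnear u7 u0 (by positivity [A.hβ0])).trans (by linarith)
    have bound : ∀ u r : ℝ, 0 ≤ u → u ≤ 7 → r ≤ A.phi x * u →
        r ≤ w' * u + d₂ ∧ r ≤ 7 * (capLevel + 2) := by
      intro u r u0 u7 hr
      have h1 := (abs_le.1 (hshift u u0 u7)).1
      have h4 := mul_le_mul hφc u7 u0 (by linarith)
      constructor <;> linarith
    obtain ⟨q1, q2⟩ := bound _ p hee0.1 hee.1 hp
    obtain ⟨q1', q2'⟩ := bound _ p' hee0.2 hee.2 hp'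
    have s1 := hshift _ hee0.1 hee.1
    have s2 := hshift _ hee0.2 hee.2
    have hmin : min |p - w' * eC (A.f x)| |p' - w' * eC (A.g x)| ≤ d₂ := by
      have side : p = A.phi x * eC (A.f x) ∨ p' = A.phi x * eC (A.g x) := by
        rcases hφ.1.eq_or_lt with h0 | h0
        · exact Or.inl (by rw [hpz h0.symm, ← h0, zero_mul])
        · rcases A.side_of_phi_pos h0 with ⟨e, -⟩ | ⟨e, -⟩
          · exact Or.inl (hpe e)
          · exact Or.inr (hpe' e)
      rcases side with h | h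
      · exact (min_le_left _ _).trans (by rw [h, abs_sub_comm]; linarith)
      · exact (min_le_right _ _).trans (by rw [h, abs_sub_comm]; linarith)
    have hfull : ∀ (r u v l : ℝ), |w' * u - A.phi x * u| ≤ 49 * (d / 500) →
        (max (l - v) 0 = 0 → r = A.phi x * u) → l ^ 3 ≤ 2 →
        min |r - w' * u| (max (v ^ 3 - 2) 0) ≤ d₂ := by
      intro r u v l hsh hr hl3
      rcases le_or_gt l v with h | h
      · exact (min_le_left _ _).trans (by
          rw [hr (max_eq_right (by linarith)), abs_sub_comm]; linarith)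
      · refine (min_le_right _ _).trans (max_le ?_ hd₂.le)
        have : v ^ 3 ≤ l ^ 3 := (Odd.strictMono_pow (⟨1, rfl⟩ : Odd 3)).monotone h.le
        linarith
    obtain ⟨⟨a0, -⟩, a0', -⟩ := A.band_l x
    have hfull1 := hfull p _ (A.f x) (A.l₁ x) s1 hpe
      (by linarith [A.room x, pow_nonneg a0' 3])
    have hfull2 := hfull p' _ (A.g x) (A.l₂ x) s2 hpe' (by linarith [A.room x, pow_nonneg a0 3])
    have hvec := A.vec_close hN₀1 (hR'.trans (by linarith [le_abs_self M])) (hip : S.ip A.level A.level x ≤ e₀)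
      (show A.ε ≤ e₀ by linarith) (by linarith [heN]) (show e₀ * N₀ ≤ d₂ / 10 by linarith)
    have key := hcon w' _ _ p p' _ _ _ _ hsymf hsymg (hband _ hdd₂).1 (hband _ hdd₂).2
      (A.band₃ x).1.1 (A.band₃ x).2.1 hR' (hlev'.trans hdd₂) hvec hmem ⟨hp0, q2⟩ ⟨hp0', q2'⟩
      q1 q1' hmin hfull1 hfull2 (near₁.trans hdd₂) (near₂.trans hdd₂)
    have hkk := hk _ _ _ _ (hband _ hdd₃).1 (hband _ hdd₃).2 (A.band₃ x).1.1 (A.band₃ x).2.1 hR'
      (hlev'.trans hdd₃)
    obtain ⟨-, g1, g2⟩ := hgr (A.f x) (A.g x) (S.grad A.f x) (S.grad A.g x) (A.band₃ x).1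
      (A.band₃ x).2
    have hεe : A.ε ≤ ε / (48 * ((1 + (capLevel + 3)) * (Bm + 1) * N₀)) := by
      linarith [show d ≤ ε / (48 * ((1 + (capLevel + 3)) * (Bm + 1) * N₀)) from
        (min_le_left _ _).trans (min_le_right _ _)]
    have sw := C.multiplier_close A hmem hδk (min_le_right _ _) hε hN₀1
      (by linarith [le_abs_self M]) hkk hεe g1 g2
    change G (A.f x) (A.g x) ≤ A.divAt C.P x + (C.k (A.jetPt x) + w' * C.k₁ (A.jetPt x)) * _ + κ +
      ε / 2 * A.size₂ x at key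
    linarith
  rcases le_or_gt (A.level x) (-(s / 2)) with h | h
  · have hi := int0 h
    have key := add_le_add (mul_le_mul_of_nonneg_left con hw.1)
      (mul_le_mul_of_nonneg_left hi (sub_nonneg.2 hw.2))
    calc G (A.f x) (A.g x) = w * G (A.f x) (A.g x) + (1 - w) * G (A.f x) (A.g x) := by ring
      _ ≤ _ := key
      _ = _ := by ring
  · rw [hw1 h, one_mul]
    exact con

/-- Off the good points the divergence is bounded below by the traces. -/
theorem bad_point (M : ℝ) {ε : ℝ} (hε : 0 < ε) :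
    ∃ δ₀ B : ℝ, 0 < δ₀ ∧ δ₀ ≤ 1 ∧ 0 ≤ B ∧ ∀ (A : Approx S) (x : X),
      A.energyDensity x ≤ M → A.ε ≤ δ₀ → A.level x ≤ 2 * δ₀ →
        -(ε * A.size₂ x + B * (1 + S.lap A.f x ^ 2 + S.lap A.g x ^ 2)) ≤ A.divAt C.P x := by
  obtain ⟨d, hd, hrec⟩ := C.recession_nearly M hε
  obtain ⟨q, B, hB⟩ := C.growth
  refine ⟨min 1 (d / 4), 600 * |B| * (1 + |M|) ^ q * (1 + |M|) / d, lt_min one_pos (by linarith),
    min_le_left _ _, by positivity, fun A x hR hεd hlev => ?_⟩
  have hd2 : min 1 (d / 4) ≤ d / 4 := min_le_right _ _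
  obtain ⟨n1, n2⟩ := abs_le.1 (A.level_near x)
  have hT : 0 ≤ 1 + S.lap A.f x ^ 2 + S.lap A.g x ^ 2 := by positivity
  have hBd : 0 ≤ 600 * |B| * (1 + |M|) ^ q * (1 + |M|) / d := by positivity
  have h1 := A.one_le_size₂ x
  by_cases htr : 1 + S.lap A.f x ^ 2 + S.lap A.g x ^ 2 ≤ d * A.size₂ x
  · have key := hrec (A.f x) (A.g x) (S.grad A.f x) (S.grad A.g x) (S.hess A.f x) (S.hess A.g x)
      (S.hess_symm A.smooth_f x) (S.hess_symm A.smooth_g x)
      ⟨by linarith [(A.band x).1.1], (A.band₃ x).1.2⟩ ⟨by linarith [(A.band x).2.1], (A.band₃ x).2.2⟩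
      (A.band₃ x).1.1 (A.band₃ x).2.1 hR
      (by linarith) htr
    change -(ε * A.size₂ x) ≤ A.divAt C.P x at key
    linarith [mul_nonneg hBd hT]
  · have hb := (hB (A.f x) (A.g x) (S.grad A.f x) (S.grad A.g x) (A.band₃ x).1 (A.band₃ x).2).1
    have hR0 := A.energyDensity_nonneg x
    have hR1 : 1 + A.energyDensity x ≤ 1 + |M| := by linarith [le_abs_self M]
    have hB0 : 0 ≤ B := nonneg_of_mul_nonneg_left ((abs_nonneg _).trans (hb 0).1)
      (pow_pos (by linarith [dot_self_nonneg (S.grad A.f x), dot_self_nonneg (S.grad A.g x)]) q)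
    have hd' := abs_divJet_le hb 1 (S.hess A.f x) (S.hess A.g x)
    change |A.divAt C.P x| ≤ 600 * (B * (1 + A.energyDensity x) ^ q) * (1 + A.energyDensity x) *
      A.size₂ x at hd'
    have e1 : 600 * (B * (1 + A.energyDensity x) ^ q) * (1 + A.energyDensity x) ≤
        600 * |B| * (1 + |M|) ^ q * (1 + |M|) := by
      rw [abs_of_nonneg hB0, ← mul_assoc]
      gcongr
    have e2 : A.size₂ x ≤ (1 + S.lap A.f x ^ 2 + S.lap A.g x ^ 2) / d := by
      rw [le_div_iff₀ hd, mul_comm]; exact (not_le.1 htr).le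
    have e3 := hd'.trans (mul_le_mul e1 e2 (by linarith) (by positivity))
    rw [abs_le, ← mul_div_assoc, mul_div_right_comm] at e3
    linarith [e3.1, mul_nonneg hε.le (show 0 ≤ A.size₂ x by linarith)]

end Cert

end

end Vale.Agent.P211.Analytic
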