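import Mathlib
import Vale.Agent.P211.Analytic.Passage.Point

/-!
P211, module F (note 1326): pointwise bounds for the cut fields, the tail of large gradients and
the tested multiplier, and the weights in the constraint.
-/

open MeasureTheory Matrix
open scoped ContDiff

namespace Vale.Agent.P211.Analytic

noncomputable section

/-- One below `δ`, zero above `2δ`. -/
def stepDown (δ t : ℝ) : ℝ := Real.smoothTransition (2 - t / δ)

/-- Zero below `-s`, one above `-s/2`. -/
def stepUp (s t : ℝ) : ℝ := Real.smoothTransition (2 * (t + s) / s)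

lemma contDiff_stepDown (δ : ℝ) : ContDiff ℝ ∞ (stepDown δ) := by
  unfold stepDown
  exact Real.smoothTransition.contDiff.comp (by fun_prop)

lemma contDiff_stepUp (s : ℝ) : ContDiff ℝ ∞ (stepUp s) := by
  unfold stepUp
  exact Real.smoothTransition.contDiff.comp (by fun_prop)

lemma deriv_stepDown {c₀ δ : ℝ} (hδ : 0 < δ)
    (hc : ∀ u, |deriv Real.smoothTransition u| ≤ c₀)
    (hz : ∀ u, u < 0 ∨ 1 < u → deriv Real.smoothTransition u = 0) (t : ℝ) :
    |deriv (stepDown δ) t| ≤ c₀ / δ ∧ (t < δ → deriv (stepDown δ) t = 0) := by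
  have h := ((Real.smoothTransition.contDiff : ContDiff ℝ ∞ Real.smoothTransition).differentiable
    (by simp) (2 - t / δ)).hasDerivAt.comp t (((hasDerivAt_id' t).div_const δ).const_sub 2)
  rw [HasDerivAt.deriv (f := stepDown δ) h]
  refine ⟨?_, fun ht => ?_⟩
  · rw [abs_mul, abs_neg, abs_of_pos (by positivity : 0 < 1 / δ), div_eq_mul_one_div c₀ δ]
    exact mul_le_mul_of_nonneg_right (hc _) (by positivity)
  · rw [hz _ (Or.inr ?_), zero_mul]
    have : t / δ < 1 := by rw [div_lt_one hδ]; exact ht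
    linarith

lemma deriv_stepUp_nonneg {s : ℝ} (hs : 0 < s) (t : ℝ) : 0 ≤ deriv (stepUp s) t := by
  refine Monotone.deriv_nonneg fun a b hab => Real.smoothTransition.monotone ?_
  gcongr

lemma stepUp_sides {s t : ℝ} (hs : 0 < s) :
    (t ≤ -s → stepUp s t = 0) ∧ (-(s / 2) < t → stepUp s t = 1) := by
  refine ⟨fun h => Real.smoothTransition.zero_of_nonpos ?_,
    fun h => Real.smoothTransition.one_of_one_le ?_⟩
  · rw [div_le_iff₀ hs]; linarith
  · rw [le_div_iff₀ hs]; linarith

lemma stepUp_mem (s t : ℝ) : stepUp s t ∈ Set.Icc (0 : ℝ) 1 :=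
  ⟨Real.smoothTransition.nonneg _, Real.smoothTransition.le_one _⟩

lemma stepDown_sides {δ t : ℝ} (hδ : 0 < δ) :
    (t ≤ δ → stepDown δ t = 1) ∧ (2 * δ ≤ t → stepDown δ t = 0) := by
  refine ⟨fun h => Real.smoothTransition.one_of_one_le ?_,
    fun h => Real.smoothTransition.zero_of_nonpos ?_⟩
  · have : t / δ ≤ 1 := by rw [div_le_one hδ]; exact h
    linarith
  · have : 2 ≤ t / δ := by rw [le_div_iff₀ hδ]; exact h
    linarith

lemma le_four_trunc {M R : ℝ} (hM : 0 < M) (hR : 1 ≤ R) (hR2 : R ≤ 2 * M) :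
    1 + R ≤ 4 * trunc (4 * M) R := by
  have h1 : R / (4 * M) ≤ 1 / 2 := by rw [div_le_iff₀ (by positivity)]; linarith
  have h0 : 0 ≤ R / (4 * M) := by positivity
  have hq : √(1 + (R / (4 * M)) ^ 2) ≤ 2 := by
    rw [Real.sqrt_le_left (by norm_num)]; nlinarith
  have h2 : R / 2 ≤ trunc (4 * M) R :=
    div_le_div_of_nonneg_left (by linarith) (Real.sqrt_pos.2 (by positivity)) hq
  linarith

variable {X : Type*} [TopologicalSpace X] [MeasurableSpace X] {S : ScalarGeom X}

namespace Approx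

variable (A : Approx S)

lemma ip_level_le (x : X) : S.ip A.level A.level x ≤ 968 * A.energyDensity x := by
  unfold ScalarGeom.ip
  rw [A.grad_level]
  refine (dot_add_self_le _ _).1.trans ?_
  rw [smul_dot_self, smul_dot_self]
  have h22 : ∀ u v : ℝ, 0 ≤ v → v ≤ 7 → v ≤ u → u ≤ v + A.ε → (3 * u) ^ 2 ≤ 484 := fun u v h0 h7 hu hu' => by
    have := pow_le_pow_left₀ (show 0 ≤ 3 * u by linarith) (show 3 * u ≤ 22 by linarith [A.hε.2]) 2
    linarith
  have hf : (3 * eS A.ε (A.f x)) ^ 2 ≤ 484 :=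
    h22 _ _ (eC_bound _).1 (A.eC_f_le x) (A.qS_near x).2.1.1 (A.qS_near x).2.1.2
  have hg : (3 * eS A.ε (A.g x)) ^ 2 ≤ 484 :=
    h22 _ _ (eC_bound _).1 (A.symm.eC_f_le x) (A.symm.qS_near x).2.1.1 (A.symm.qS_near x).2.1.2
  have h1 := mul_le_mul_of_nonneg_right hf (dot_self_nonneg (S.grad A.f x))
  have h2 := mul_le_mul_of_nonneg_right hg (dot_self_nonneg (S.grad A.g x))
  simp only [Approx.energyDensity, ScalarGeom.ip]
  linarith

/-- The Laplacian of the constraint is controlled by the traces. -/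
lemma abs_lap_level_le (x : X) :
    |S.lap A.level x| ≤ 65 * (1 + A.energyDensity x) * (1 + S.lap A.f x ^ 2 + S.lap A.g x ^ 2) := by
  have h1 := A.lap_level_close x
  have h2 : |levelJet 1 (A.f x) (A.g x) (S.grad A.f x) (S.grad A.g x) (S.hess A.f x) (S.hess A.g x)| ≤
      64 * (1 + A.energyDensity x) * (1 + S.lap A.f x ^ 2 + S.lap A.g x ^ 2) :=
    abs_levelJet_le (A.abs_f_le x) (A.abs_g_le x) _ _ _ _
  have h3 : 3 * A.ε * ((1 + A.energyDensity x) * (1 + S.lap A.f x ^ 2 + S.lap A.g x ^ 2)) ≤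
      1 * ((1 + A.energyDensity x) * (1 + S.lap A.f x ^ 2 + S.lap A.g x ^ 2)) :=
    mul_le_mul_of_nonneg_right (by linarith [A.hε.2])
      (mul_nonneg (by linarith [A.energyDensity_nonneg x]) (by positivity))
  rw [abs_le] at h1 h2 ⊢
  constructor <;> linarith [h1.1, h1.2, h2.1, h2.2]

/-- The cut fields against the differential of the constraint. -/
lemma fluxAt_le {P : Fin 6 → (Fin 5 → ℝ) → ℝ} {x : X} {B M l : ℝ} (hl : 0 < l) (hM : 0 < M)
    (hR : 2 * M ≤ A.energyDensity x → ∀ i, P i (A.jetPt x) = 0)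
    (hB : ∀ i, |P i (A.jetPt x)| ≤ B) :
    |A.fluxAt P x| ≤ 6 * B * (10 * l * M * A.size₂ x + 968 * M / l) := by
  have h0 : 0 ≤ B := (abs_nonneg _).trans (hB 0)
  have hN : 0 ≤ A.size₂ x := by linarith [A.one_le_size₂ x]
  rcases le_or_gt (2 * M) (A.energyDensity x) with h | h
  · simp only [Approx.fluxAt, hR h, zero_mul, Finset.sum_const_zero, abs_zero]
    positivity
  · refine (Finset.abs_sum_le_sum_abs _ _).trans ?_
    have one : ∀ i : Fin 6, |P i (A.jetPt x) * (S.grad A.level x ⬝ᵥ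
        vecPart 1 (S.grad A.f x) (S.grad A.g x) (S.hess A.f x) (S.hess A.g x) i)| ≤
        B * (10 * l * M * A.size₂ x + 968 * M / l) := fun i => by
      rw [abs_mul]
      refine mul_le_mul (hB i) ((abs_dot_vecPart_le hl _ _ _ _ _ i).trans ?_) (abs_nonneg _) h0
      have e1 : (A.energyDensity x) * A.size₂ x ≤ 2 * M * A.size₂ x :=
        mul_le_mul_of_nonneg_right h.le hN
      have e2 : S.ip A.level A.level x / l ≤ 1936 * M / l :=
        div_le_div_of_nonneg_right (by linarith [A.ip_level_le x]) hl.le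
      have e3 := mul_le_mul_of_nonneg_left e1 hl.le
      change (l * (10 * (A.energyDensity x * A.size₂ x)) + S.ip A.level A.level x / l) / 2 ≤ _
      rw [show 1936 * M / l = 2 * (968 * M / l) by ring] at e2
      linarith
    refine (Finset.sum_le_sum fun i _ => one i).trans_eq ?_
    simp
    ring

/-- The differential of a cut coefficient against that of the constraint. -/
lemma coef_flux_le {Φ : (Fin 5 → ℝ) → ℝ} (hΦ : ContDiff ℝ ∞ Φ) {x : X} {B M l : ℝ} (hl : 0 < l)
    (hM : 0 < M) (hR : 2 * M ≤ A.energyDensity x → ∀ j, part Φ j (A.jetPt x) = 0)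
    (hB : ∀ j, |part Φ j (A.jetPt x)| ≤ B) :
    |S.grad (fun y => Φ (A.jetPt y)) x ⬝ᵥ S.grad A.level x| ≤
      5 * B / 2 * (8 * l * M * A.size₂ x + S.ip A.level A.level x / l) := by
  have h0 : 0 ≤ B := (abs_nonneg _).trans (hB 0)
  have hN : 0 ≤ A.size₂ x := by linarith [A.one_le_size₂ x]
  have hI : 0 ≤ S.ip A.level A.level x / l := div_nonneg (S.ip_self_nonneg _ _) hl.le
  rw [A.grad_coef hΦ]
  rcases le_or_gt (2 * M) (A.energyDensity x) with h | h
  · refine (abs_diffJet_dot_le (B := 0) hl (fun j => ?_) _ _ _ _).trans ?_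
    · exact (abs_eq_zero.2 (hR h j)).le
    · simp only [mul_zero, zero_div, zero_mul]
      positivity
  · refine (abs_diffJet_dot_le hl hB _ _ _ _).trans (mul_le_mul_of_nonneg_left ?_ (by positivity))
    have e3 := mul_le_mul_of_nonneg_left (mul_le_mul_of_nonneg_right h.le hN) hl.le
    change l * (4 * (A.energyDensity x * A.size₂ x)) + S.ip A.level A.level x / l ≤ _
    linarith

/-- The tail of large gradients. -/
lemma tail_le {q : ℕ} {M : ℝ} (hM : 2 ≤ M) {x : X} (hR : M / 2 < A.energyDensity x)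
    (hR2 : A.energyDensity x ≤ 2 * M) :
    (1 + A.energyDensity x) ^ (q + 1) * A.size₂ x ≤ 2 * 4 ^ (q + 2) / M *
      (weight (q + 2) (4 * M) (A.energyDensity x) * A.energyDensity x +
        weight (q + 2) (4 * M) (A.energyDensity x) * A.hessDensity x) := by
  have hR1 : 1 ≤ A.energyDensity x := by linarith
  have h4 := pow_le_pow_left₀ (by linarith) (le_four_trunc (by linarith) hR1 hR2) (q + 2)
  rw [mul_pow] at h4
  have hh := A.hessDensity_nonneg x
  have h5 := mul_le_mul h4
    (show A.size₂ x ≤ A.energyDensity x + A.hessDensity x by linarith [A.size₂_eq x])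
    (by linarith [A.one_le_size₂ x])
    (mul_nonneg (by positivity) (weight_bounds (by linarith) (by linarith)).1)
  rw [div_mul_eq_mul_div, le_div_iff₀ (by linarith)]
  calc (1 + A.energyDensity x) ^ (q + 1) * A.size₂ x * M
      ≤ (1 + A.energyDensity x) ^ (q + 1) * A.size₂ x * (2 * (1 + A.energyDensity x)) :=
        mul_le_mul_of_nonneg_left (by linarith)
          (mul_nonneg (by positivity) (by linarith [A.one_le_size₂ x]))
    _ = 2 * ((1 + A.energyDensity x) ^ (q + 2) * A.size₂ x) := by ring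
    _ ≤ 2 * (4 ^ (q + 2) * trunc (4 * M) (A.energyDensity x) ^ (q + 2) *
        (A.energyDensity x + A.hessDensity x)) := by linarith
    _ = _ := by rw [weight]; ring

end Approx

end

end Vale.Agent.P211.Analytic
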