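import Mathlib
import Vale.Agent.P211.Analytic.Passage.Bounds

/-!
P211, module F (note 1326): the certificate at every point, moderate or large gradients.
-/

open MeasureTheory Matrix
open scoped ContDiff

namespace Vale.Agent.P211.Analytic

noncomputable section

variable {X : Type*} [TopologicalSpace X] [MeasurableSpace X] {S : ScalarGeom X}

/-- A bounded quantity, on a set where a nonnegative one exceeds a threshold. -/
lemma bad_mass {T₁ T c d Z l : ℝ} (hT₁ : 0 ≤ T₁) (hd : 0 < d) (hc : 0 ≤ c) (hl : 0 ≤ l)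
    (hZ : d ≤ Z) (hT : T ≤ c + 4 * l) : T₁ * T ≤ T₁ * (c / d + 4) * (Z + l) := by
  rw [mul_assoc]
  refine mul_le_mul_of_nonneg_left (hT.trans ?_) hT₁
  have h1 : c ≤ c / d * Z := by
    rw [div_mul_eq_mul_div, le_div_iff₀ hd]; exact mul_le_mul_of_nonneg_left hZ hc
  have h2 : 0 ≤ c / d * l := mul_nonneg (div_nonneg hc hd.le) hl
  rw [add_mul, mul_add, mul_add]
  linarith

/-- The tested multiplier at moderate gradients. -/
lemma Approx.abs_test_le (A : Approx S) {x : X} {M Bk k k₁ w m W : ℝ} {q : ℕ}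
    (hR : A.energyDensity x ≤ M) (hBk : 0 ≤ Bk) (hk : |k| ≤ Bk * (1 + A.energyDensity x) ^ q)
    (hk₁ : |k₁| ≤ Bk * (1 + A.energyDensity x) ^ q) (hw : w ∈ Set.Icc (0 : ℝ) 1)
    (hm : m ∈ Set.Icc 0 (W + 3)) :
    |w * (k * S.lap A.level x) + w * m * (k₁ * S.lap A.level x)| ≤
      65 * ((W + 4) * (Bk * (1 + |M|) ^ q) * (1 + |M|)) *
        (1 + S.lap A.f x ^ 2 + S.lap A.g x ^ 2) := by
  have hR0 := A.energyDensity_nonneg x
  have hM1 : 1 + A.energyDensity x ≤ 1 + |M| := by linarith [le_abs_self M]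
  have e := mul_le_mul_of_nonneg_left (pow_le_pow_left₀ (by linarith) hM1 q) hBk
  have k0 : |k + m * k₁| ≤ (W + 4) * (Bk * (1 + |M|) ^ q) := by
    refine (abs_add_le _ _).trans ?_
    rw [abs_mul, abs_of_nonneg hm.1]
    have := mul_le_mul hm.2 (hk₁.trans e) (abs_nonneg _) (hm.1.trans hm.2)
    linarith [hk.trans e]
  have k2 : |S.lap A.level x| ≤ 65 * (1 + |M|) * (1 + S.lap A.f x ^ 2 + S.lap A.g x ^ 2) := by
    refine (A.abs_lap_level_le x).trans ?_
    exact mul_le_mul_of_nonneg_right (mul_le_mul_of_nonneg_left hM1 (by norm_num)) (by positivity)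
  rw [mul_assoc w, ← mul_add, ← mul_assoc m, ← add_mul, abs_mul, abs_mul, abs_of_nonneg hw.1]
  refine (mul_le_of_le_one_left (mul_nonneg (abs_nonneg _) (abs_nonneg _)) hw.2).trans ?_
  exact (mul_le_mul k0 k2 (abs_nonneg _) ((abs_nonneg _).trans k0)).trans_eq (by ring)

/-- Off the good points one of the errors is not small. -/
lemma Approx.bad_threshold (A : Approx S) {x : X} {d₀ s : ℝ} (hd₀ : 0 < d₀) (hd₀1 : d₀ ≤ 1)
    (hsd : s < d₀) (hεs : A.ε ≤ s / 4) (hβs : 2 * (capLevel + 1) ≤ A.β * s)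
    (hgd : ¬(A.errSum x ≤ d₀ ∧
      (A.level x ≤ -s ∨ |A.level x| < s ∧ S.ip A.level A.level x ≤ d₀))) :
    d₀ ^ 2 ≤ A.errSum x ^ 2 + A.layerPart s x := by
  have hlay := A.layerPart_nonneg s x
  by_cases h1 : A.errSum x ≤ d₀
  · have h2 : ¬(A.level x ≤ -s ∨ |A.level x| < s ∧ S.ip A.level A.level x ≤ d₀) :=
      fun h => hgd ⟨h1, h⟩
    rw [not_or, not_le] at h2
    by_cases h3 : |A.level x| < s
    · have h4 : d₀ < S.ip A.level A.level x := not_le.1 fun h => h2.2 ⟨h3, h⟩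
      have h5 : A.layerPart s x = S.ip A.level A.level x :=
        Set.indicator_of_mem (show x ∈ {y | |A.level y| < s} from h3) _
      nlinarith [sq_nonneg (A.errSum x)]
    · have h4 : s ≤ A.level x := by
        rcases le_abs.1 (not_lt.1 h3) with h | h
        · exact h
        · linarith [h2.1]
      have h5 := (A.phi_sides (by linarith : s ≤ 1) hεs hβs x).2 h4
      have h6 : max (A.phi x - capLevel) 0 ≤ A.errSum x := by
        have := A.errSum_bounds x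
        have := A.symm.errSum_bounds x
        unfold Approx.errSum
        linarith [abs_nonneg (A.res x), abs_nonneg (A.symm.res x)]
      nlinarith
  · nlinarith [pow_le_pow_left₀ hd₀.le (not_le.1 h1).le 2]

namespace Cert

variable {G : ℝ → ℝ → ℝ} {κ : ℝ} (C : Cert G κ (capLevel + 3))

/-- A bound on `G` on the band. -/
lemma exists_bound_G (hG : Continuous fun z : ℝ × ℝ => G z.1 z.2) :
    ∃ Gm : ℝ, 0 ≤ Gm ∧ ∀ s t : ℝ, s ∈ Set.Icc (-1 : ℝ) 3 → t ∈ Set.Icc (-1 : ℝ) 3 → |G s t| ≤ Gm := by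
  obtain ⟨c, hc⟩ := ((isCompact_Icc (a := (-1 : ℝ)) (b := 3)).prod
    (isCompact_Icc (a := (-1 : ℝ)) (b := 3))).exists_bound_of_continuousOn hG.continuousOn
  refine ⟨c, (norm_nonneg _).trans (hc (0, 0) ⟨by simp, by simp⟩), fun s t hs ht => ?_⟩
  exact (Real.norm_eq_abs _).symm.trans_le (hc (s, t) ⟨hs, ht⟩)

/-- The bounds of the certificate along an almost solution. -/
lemma bounds_at : ∃ (q : ℕ) (B : ℝ), 0 ≤ B ∧ ∀ (A : Approx S) (x : X),
    (∀ i, |C.P i (A.jetPt x)| ≤ B * (1 + A.energyDensity x) ^ q ∧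
      ∀ j, |part (C.P i) j (A.jetPt x)| ≤ B * (1 + A.energyDensity x) ^ q) ∧
    (|C.k (A.jetPt x)| ≤ B * (1 + A.energyDensity x) ^ q ∧
      |C.k₁ (A.jetPt x)| ≤ B * (1 + A.energyDensity x) ^ q) := by
  obtain ⟨q, B, h⟩ := C.growth
  refine ⟨q, |B|, abs_nonneg B, fun A x => ?_⟩
  have hp := pow_nonneg (show 0 ≤ 1 + A.energyDensity x by linarith [A.energyDensity_nonneg x]) q
  have e : B * (1 + A.energyDensity x) ^ q ≤ |B| * (1 + A.energyDensity x) ^ q :=
    mul_le_mul_of_nonneg_right (le_abs_self B) hp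
  obtain ⟨h1, h2⟩ := h (A.f x) (A.g x) (S.grad A.f x) (S.grad A.g x) (A.band₃ x).1 (A.band₃ x).2
  exact ⟨fun i => ⟨(h1 i).1.trans e, fun j => ((h1 i).2 j).trans e⟩, h2.1.trans e, h2.2.trans e⟩

lemma contDiff_kS {δ : ℝ} (hδ : 0 < δ) :
    ContDiff ℝ ∞ (C.kS δ) ∧ ContDiff ℝ ∞ (C.k₁S δ) :=
  ⟨(contDiff_smPos hδ.ne').comp C.smooth_k, (contDiff_smPos hδ.ne').comp C.smooth_k₁⟩

lemma kS_nonneg {δ : ℝ} (hδ : 0 ≤ δ) (y : Fin 5 → ℝ) : 0 ≤ C.kS δ y ∧ 0 ≤ C.k₁S δ y :=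
  ⟨(le_max_right _ _).trans (smPos_bounds hδ _).1, (le_max_right _ _).trans (smPos_bounds hδ _).1⟩

/-- The bounds of the nonnegative multipliers along an almost solution. -/
lemma bounds_kS : ∃ (q : ℕ) (B : ℝ), 0 ≤ B ∧ ∀ (A : Approx S) (x : X),
    (∀ i, |C.P i (A.jetPt x)| ≤ B * (1 + A.energyDensity x) ^ q ∧
      ∀ j, |part (C.P i) j (A.jetPt x)| ≤ B * (1 + A.energyDensity x) ^ q) ∧
    ∀ δ ∈ Set.Icc (0 : ℝ) 1, |C.kS δ (A.jetPt x)| ≤ B * (1 + A.energyDensity x) ^ q ∧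
      |C.k₁S δ (A.jetPt x)| ≤ B * (1 + A.energyDensity x) ^ q := by
  obtain ⟨q, B, hB, h⟩ := C.bounds_at (S := S)
  refine ⟨q, B + 1, by linarith, fun A x => ?_⟩
  obtain ⟨h1, h2⟩ := h A x
  have hp : 1 ≤ (1 + A.energyDensity x) ^ q :=
    one_le_pow₀ (by linarith [A.energyDensity_nonneg x])
  have up : ∀ r, r ≤ B * (1 + A.energyDensity x) ^ q → r ≤ (B + 1) * (1 + A.energyDensity x) ^ q :=
    fun r hr => by linarith
  have one : ∀ k δ : ℝ, 0 ≤ δ → δ ≤ 1 → |k| ≤ B * (1 + A.energyDensity x) ^ q →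
      |smPos δ k| ≤ (B + 1) * (1 + A.energyDensity x) ^ q := fun k δ d0 d1 hk => by
    obtain ⟨a1, a2⟩ := smPos_bounds d0 k
    rw [abs_of_nonneg ((le_max_right _ _).trans a1)]
    have : max k 0 ≤ |k| := max_le (le_abs_self _) (abs_nonneg _)
    linarith
  exact ⟨fun i => ⟨up _ (h1 i).1, fun j => up _ ((h1 i).2 j)⟩, fun δ hδ =>
    ⟨one _ _ hδ.1 hδ.2 h2.1, one _ _ hδ.1 hδ.2 h2.2⟩⟩

/-- Moderate gradients. -/
theorem near_le (hG : Continuous fun z : ℝ × ℝ => G z.1 z.2) (hκ : 0 ≤ κ) (M : ℝ) {ε : ℝ}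
    (hε : 0 < ε) :
    ∃ δk δ₀ d₀ B₃ : ℝ, 0 < δk ∧ δk ≤ 1 ∧ 0 < δ₀ ∧ 0 < d₀ ∧ d₀ ≤ δ₀ ∧ δ₀ ≤ 1 ∧ 0 ≤ B₃ ∧
      ∀ (A : Approx S) (h : ℝ → ℝ) (x : X) (s : ℝ), A.Pen h → 0 < s → s < d₀ →
        A.ε ≤ s / 4 →
        A.β * A.ε ≤ d₀ → 2 * (capLevel + 1) ≤ A.β * s → A.energyDensity x ≤ M →
          G (A.f x) (A.g x) ≤ κ + stepDown δ₀ (A.level x) * A.divAt C.P x +
            stepUp s (A.level x) * (C.kS δk (A.jetPt x) * S.lap A.level x) +
            stepUp s (A.level x) * h (A.level x) * (C.k₁S δk (A.jetPt x) * S.lap A.level x) +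
            ε * A.size₂ x +
            B₃ * (A.errSum x ^ 2 + A.layerPart s x + A.lapErr x ^ 2) := by
  obtain ⟨δk, d, hk0, hk1, hd0, hd1, hgood⟩ := C.good_point (S := S) hG M hε
  obtain ⟨δ₀, B, hδ0, hδ1, hB, hbad⟩ := C.bad_point (S := S) M hε
  obtain ⟨Gm, hGm, hGb⟩ := exists_bound_G hG
  obtain ⟨q, Bk, hBk, hbd⟩ := C.bounds_kS (S := S)
  set d₀ := min d δ₀
  have hd₀ : 0 < d₀ := lt_min hd0 hδ0
  have hcap0 := capLevel_nonneg
  set Cl := 46 + 7 * capLevel with hCl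
  obtain ⟨Kk, hKk⟩ : ∃ Kk, Kk = 65 * ((capLevel + 4) * (Bk * (1 + |M|) ^ q) * (1 + |M|)) := ⟨_, rfl⟩
  obtain ⟨T₁, hT₁⟩ : ∃ T₁, T₁ = Gm + B + Kk := ⟨_, rfl⟩
  have hKk0 : 0 ≤ Kk := by rw [hKk]; positivity
  have hT₁0 : 0 ≤ T₁ := by linarith
  refine ⟨δk, δ₀, d₀, T₁ * ((1 + 4 * Cl ^ 2) / d₀ ^ 2 + 4), hk0, hk1, hδ0, hd₀, min_le_right _ _,
    hδ1, by positivity, fun A hf x s hpen hs hsd hεs hβε hβs hR => ?_⟩
  have hsd' : s ≤ d := hsd.le.trans (min_le_left _ _)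
  have hsδ : s < δ₀ := hsd.trans_le (min_le_right _ _)
  have hN := A.one_le_size₂ x
  have hlay := A.layerPart_nonneg s x
  have hZ : 0 ≤ A.errSum x ^ 2 + A.layerPart s x := by positivity
  have hwu : stepUp s (A.level x) ∈ Set.Icc (0 : ℝ) 1 :=
    ⟨Real.smoothTransition.nonneg _, Real.smoothTransition.le_one _⟩
  have hwd : stepDown δ₀ (A.level x) ∈ Set.Icc (0 : ℝ) 1 :=
    ⟨Real.smoothTransition.nonneg _, Real.smoothTransition.le_one _⟩
  by_cases hgd : A.errSum x ≤ d₀ ∧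
      (A.level x ≤ -s ∨ |A.level x| < s ∧ S.ip A.level A.level x ≤ d₀)
  · obtain ⟨h1, h2⟩ := hgd
    have hd₀d : d₀ ≤ d := min_le_left _ _
    have key := hgood A hf x s (stepUp s (A.level x)) hpen hR hs hsd' hεs (hβε.trans hd₀d) hβs hwu
      (stepUp_sides hs).1 (stepUp_sides hs).2 (h1.trans hd₀d)
      (h2.imp id fun h => ⟨h.1, h.2.trans hd₀d⟩)
    have hlev : A.level x ≤ δ₀ := by
      rcases h2 with h | h
      · linarith
      · linarith [(abs_lt.1 h.1).2]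
    rw [(stepDown_sides hδ0).1 hlev, one_mul]
    have : 0 ≤ T₁ * ((1 + 4 * Cl ^ 2) / d₀ ^ 2 + 4) *
        (A.errSum x ^ 2 + A.layerPart s x + A.lapErr x ^ 2) := by positivity
    linarith
  · have thr : d₀ ^ 2 ≤ A.errSum x ^ 2 + A.layerPart s x :=
      A.bad_threshold hd₀ ((min_le_right _ _).trans hδ1) hsd hεs hβs hgd
    set T := 1 + S.lap A.f x ^ 2 + S.lap A.g x ^ 2 with hTdef
    have hT0 : 0 ≤ T := by positivity
    have hTb : T ≤ (1 + 4 * Cl ^ 2) + 4 * A.lapErr x ^ 2 := by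
      obtain ⟨l1, l2⟩ := A.abs_laps_le_lapErr x
      rw [← hCl] at l1 l2
      have q1 := pow_le_pow_left₀ (abs_nonneg _) l1 2
      have q2 := pow_le_pow_left₀ (abs_nonneg _) l2 2
      rw [sq_abs] at q1 q2
      nlinarith [sq_nonneg (Cl - A.lapErr x)]
    have hdiv : -(ε * A.size₂ x + B * T) ≤ stepDown δ₀ (A.level x) * A.divAt C.P x := by
      have hpos : 0 ≤ ε * A.size₂ x + B * T := by positivity [hN, show (0:ℝ) ≤ A.size₂ x by linarith]
      rcases le_or_gt (2 * δ₀) (A.level x) with h | h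
      · rw [(stepDown_sides hδ0).2 h, zero_mul]; linarith
      · have h' := hbad A x hR (by linarith [A.hε.1]) h.le
        rw [← hTdef] at h'
        rcases le_or_gt 0 (A.divAt C.P x) with hp | hp
        · linarith [mul_nonneg hwd.1 hp]
        · have := mul_le_mul_of_nonpos_right hwd.2 hp.le
          rw [one_mul] at this
          linarith
    have hk : |stepUp s (A.level x) * (C.kS δk (A.jetPt x) * S.lap A.level x) +
        stepUp s (A.level x) * hf (A.level x) * (C.k₁S δk (A.jetPt x) * S.lap A.level x)| ≤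
        Kk * T := by
      rw [hKk]
      exact A.abs_test_le hR hBk ((hbd A x).2 _ ⟨hk0.le, hk1⟩).1 ((hbd A x).2 _ ⟨hk0.le, hk1⟩).2 hwu
        (hpen.mem _)
    have hG1 : G (A.f x) (A.g x) ≤ Gm * T :=
      ((le_abs_self _).trans (hGb _ _ (A.band₃ x).1 (A.band₃ x).2)).trans
        (le_mul_of_one_le_right hGm (by
          rw [hTdef]; linarith [sq_nonneg (S.lap A.f x), sq_nonneg (S.lap A.g x)]))
    have e1 : T₁ * T ≤ T₁ * ((1 + 4 * Cl ^ 2) / d₀ ^ 2 + 4) *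
        (A.errSum x ^ 2 + A.layerPart s x + A.lapErr x ^ 2) := by
      exact bad_mass hT₁0 (by positivity) (by positivity) (sq_nonneg _) thr hTb
    rw [abs_le] at hk
    have hεN : 0 ≤ ε * A.size₂ x := mul_nonneg hε.le (by linarith)
    generalize T₁ * ((1 + 4 * Cl ^ 2) / d₀ ^ 2 + 4) *
      (A.errSum x ^ 2 + A.layerPart s x + A.lapErr x ^ 2) = F at e1 ⊢
    rw [hT₁, add_mul, add_mul] at e1
    linarith only [hk.1, hεN, e1, hdiv, hG1, hκ]

/-- Large gradients. -/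
theorem tail_le (hG : Continuous fun z : ℝ × ℝ => G z.1 z.2) (hκ : 0 ≤ κ) {W₀ : ℝ} (hW₀ : 0 ≤ W₀) :
    ∃ (q : ℕ) (Kt : ℝ), 0 ≤ Kt ∧ ∀ (A : Approx S) (x : X) (M u v v₁ δk : ℝ), 2 ≤ M →
      0 < δk → δk ≤ 1 →
      u ∈ Set.Icc (0 : ℝ) 1 → v ∈ Set.Icc (0 : ℝ) 1 → v₁ ∈ Set.Icc 0 W₀ →
      M / 2 < A.energyDensity x →
        G (A.f x) (A.g x) ≤ κ + u * A.divAt (fun i => cutMul M (C.P i)) x +
          v * (cutMul M (C.kS δk) (A.jetPt x) * S.lap A.level x) +
          v₁ * (cutMul M (C.k₁S δk) (A.jetPt x) * S.lap A.level x) +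
          Kt / M * (A.energyDensity x +
            (weight (q + 2) (4 * M) (A.energyDensity x) * A.energyDensity x +
              weight (q + 2) (4 * M) (A.energyDensity x) * A.hessDensity x)) := by
  obtain ⟨Gm, hGm, hGb⟩ := exists_bound_G hG
  obtain ⟨q, B, hB, hbd⟩ := C.bounds_kS (S := S)
  obtain ⟨c₁, hc₁, hcut⟩ := exists_cut_bound
  refine ⟨q, 2 * Gm + (600 * c₁ + 260 * c₁ * (1 + W₀)) * B * (2 * 4 ^ (q + 2)), by positivity,
    fun A x M u v v₁ δk hM hk0 hk1 hu hv hv₁ hR => ?_⟩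
  obtain ⟨hsk, hsk₁⟩ := C.contDiff_kS hk0
  have hR0 := A.energyDensity_nonneg x
  have hN := A.one_le_size₂ x
  set W := weight (q + 2) (4 * M) (A.energyDensity x) * A.energyDensity x +
    weight (q + 2) (4 * M) (A.energyDensity x) * A.hessDensity x with hWdef
  have hW : 0 ≤ W := by
    have := (weight_bounds (p := q + 2) (show (0 : ℝ) < 4 * M by linarith) hR0).1
    have := A.hessDensity_nonneg x
    positivity
  have hGb' : G (A.f x) (A.g x) ≤ 2 * Gm / M * A.energyDensity x := by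
    refine ((le_abs_self _).trans (hGb _ _ (A.band₃ x).1 (A.band₃ x).2)).trans ?_
    rw [div_mul_eq_mul_div, le_div_iff₀ (by linarith)]
    nlinarith
  set Kc := (600 * c₁ + 260 * c₁ * (1 + W₀)) * B * (2 * 4 ^ (q + 2)) with hKc
  have hKc0 : 0 ≤ Kc := by positivity
  have hsum : (2 * Gm + Kc) / M * (A.energyDensity x + W) =
      2 * Gm / M * A.energyDensity x + Kc / M * A.energyDensity x + 2 * Gm / M * W + Kc / M * W := by
    ring
  have h1 : 0 ≤ Kc / M * A.energyDensity x := mul_nonneg (div_nonneg hKc0 (by linarith)) hR0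
  have h2 : 0 ≤ 2 * Gm / M * W := mul_nonneg (div_nonneg (by linarith) (by linarith)) hW
  rw [hsum]
  have hjet : A.jetPt x 2 + A.jetPt x 3 = A.energyDensity x := rfl
  rcases le_or_gt (2 * M) (A.energyDensity x) with h | h
  · have z := fun i => (cutMul_eq (by linarith) (C.smooth_P i) (A.jetPt x)).2 (hjet ▸ h)
    have zk := ((cutMul_eq (by linarith) hsk (A.jetPt x)).2 (hjet ▸ h)).1
    have zk₁ := ((cutMul_eq (by linarith) hsk₁ (A.jetPt x)).2 (hjet ▸ h)).1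
    have hz : A.divAt (fun i => cutMul M (C.P i)) x = 0 := abs_nonpos_iff.1 (by
      refine (abs_divJet_le (B := 0) (fun i => ⟨(abs_eq_zero.2 (z i).1).le,
        fun j => (abs_eq_zero.2 ((z i).2 j)).le⟩) 1 _ _).trans_eq ?_
      ring)
    rw [hz, zk, zk₁, mul_zero, zero_mul, mul_zero, mul_zero, add_zero, add_zero, add_zero]
    linarith [mul_nonneg (div_nonneg hKc0 (show (0 : ℝ) ≤ M by linarith)) hW]
  · have hp := pow_nonneg (show 0 ≤ 1 + A.energyDensity x by linarith) q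
    have hcb := fun i => hcut (show 1 ≤ M by linarith) (C.smooth_P i) (A.jetPt x)
      (((hbd A x).1 i).1) (((hbd A x).1 i).2)
    have d1 := abs_divJet_le (P := fun i => cutMul M (C.P i)) hcb 1 (S.hess A.f x) (S.hess A.g x)
    change |A.divAt (fun i => cutMul M (C.P i)) x| ≤
      600 * (c₁ * (B * (1 + A.energyDensity x) ^ q)) * (1 + A.energyDensity x) * A.size₂ x at d1
    have k1 : |cutMul M (C.kS δk) (A.jetPt x)| ≤ c₁ * (B * (1 + A.energyDensity x) ^ q) := by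
      rw [cutMul, abs_mul, abs_of_nonneg (Real.smoothTransition.nonneg _)]
      exact mul_le_mul ((Real.smoothTransition.le_one _).trans hc₁) ((hbd A x).2 _ ⟨hk0.le, hk1⟩).1 (abs_nonneg _)
        (by linarith)
    have k2 : |S.lap A.level x| ≤ 260 * (1 + A.energyDensity x) * A.size₂ x := by
      refine (A.abs_lap_level_le x).trans ?_
      have ht : 1 + S.lap A.f x ^ 2 + S.lap A.g x ^ 2 ≤ 4 * A.size₂ x := by
        have e1 := trace_sq_le (S.hess A.f x)
        have e2 := trace_sq_le (S.hess A.g x)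
        simp only [Approx.size₂, jetSize, ScalarGeom.lap]
        linarith
      exact (mul_le_mul_of_nonneg_left ht (by linarith)).trans_eq (by ring)
    have t1 : |u * A.divAt (fun i => cutMul M (C.P i)) x| ≤
        600 * c₁ * B * ((1 + A.energyDensity x) ^ (q + 1) * A.size₂ x) := by
      rw [abs_mul, abs_of_nonneg hu.1]
      exact ((mul_le_of_le_one_left (abs_nonneg _) hu.2).trans d1).trans_eq (by ring)
    have t2 : |v * (cutMul M (C.kS δk) (A.jetPt x) * S.lap A.level x)| ≤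
        260 * c₁ * B * ((1 + A.energyDensity x) ^ (q + 1) * A.size₂ x) := by
      rw [abs_mul, abs_mul, abs_of_nonneg hv.1]
      refine (mul_le_of_le_one_left (mul_nonneg (abs_nonneg _) (abs_nonneg _)) hv.2).trans ?_
      exact (mul_le_mul k1 k2 (abs_nonneg _) (by positivity)).trans_eq (by ring)
    have k1' : |cutMul M (C.k₁S δk) (A.jetPt x)| ≤ c₁ * (B * (1 + A.energyDensity x) ^ q) := by
      rw [cutMul, abs_mul, abs_of_nonneg (Real.smoothTransition.nonneg _)]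
      exact mul_le_mul ((Real.smoothTransition.le_one _).trans hc₁) ((hbd A x).2 _ ⟨hk0.le, hk1⟩).2 (abs_nonneg _)
        (by linarith)
    have t4 : |v₁ * (cutMul M (C.k₁S δk) (A.jetPt x) * S.lap A.level x)| ≤
        260 * c₁ * W₀ * B * ((1 + A.energyDensity x) ^ (q + 1) * A.size₂ x) := by
      rw [abs_mul, abs_mul, abs_of_nonneg hv₁.1]
      exact (mul_le_mul hv₁.2 (mul_le_mul k1' k2 (abs_nonneg _) (by positivity))
        (by positivity) hW₀).trans_eq (by ring)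
    have t3 := mul_le_mul_of_nonneg_left (A.tail_le (q := q) hM hR h.le)
      (show 0 ≤ (600 * c₁ + 260 * c₁ * (1 + W₀)) * B by positivity)
    rw [← hWdef, show (600 * c₁ + 260 * c₁ * (1 + W₀)) * B * (2 * 4 ^ (q + 2) / M * W) = Kc / M * W by
      rw [hKc]; ring] at t3
    rw [abs_le] at t1 t2 t4
    linarith [t1.1, t2.1, t4.1]

end Cert

end

end Vale.Agent.P211.Analytic
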