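import Mathlib
import Vale.Agent.P211.Analytic.Passage.Sides
import Vale.Agent.P211.Analytic.EndGame.Gate

/-!
P211, module F (note 1326): from a family of pointwise certificates with loss tending to zero to
the passage form `Gate`.
-/

set_option linter.unusedSectionVars false

open MeasureTheory Matrix
open scoped ContDiff

namespace Vale.Agent.P211.Analytic

noncomputable section

variable {X : Type*} [TopologicalSpace X] [MeasurableSpace X] [CompactSpace X] [BorelSpace X]
  {S : ScalarGeom X}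

namespace Approx

variable (A : Approx S)

omit [CompactSpace X] [BorelSpace X] in
lemma continuous_errSum : Continuous A.errSum := by
  have h1 := A.continuous_below
  have h2 := A.symm.continuous_below
  have h3 := A.continuous_excess
  have h4 := A.symm.continuous_excess
  have h5 := A.continuous_res
  have h6 := A.symm.continuous_res
  have h7 := A.continuous_phi
  unfold Approx.errSum
  fun_prop

omit [CompactSpace X] [BorelSpace X] in
lemma continuous_size₂ : Continuous A.size₂ := by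
  rw [funext A.size₂_eq]
  exact continuous_const.add A.continuous_hessDensity

/-- The errors in mean square. -/
lemma integral_errSum_sq {ν : ℝ} (h : A.Small ν) : ∫ x, A.errSum x ^ 2 ∂S.vol ≤ 49 * ν := by
  have i1 : Integrable (fun x => A.below x ^ 2) S.vol := S.integrable (A.continuous_below.pow 2)
  have i2 : Integrable (fun x => A.symm.below x ^ 2) S.vol :=
    S.integrable (A.symm.continuous_below.pow 2)
  have i3 : Integrable (fun x => A.excess x ^ 2) S.vol := S.integrable (A.continuous_excess.pow 2)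
  have i4 : Integrable (fun x => A.symm.excess x ^ 2) S.vol :=
    S.integrable (A.symm.continuous_excess.pow 2)
  have i5 : Integrable (fun x => A.res x ^ 2) S.vol := S.integrable (A.continuous_res.pow 2)
  have i6 : Integrable (fun x => A.symm.res x ^ 2) S.vol :=
    S.integrable (A.symm.continuous_res.pow 2)
  have i7 : Integrable (fun x => max (A.phi x - capLevel) 0 ^ 2) S.vol :=
    S.integrable (((A.continuous_phi.sub continuous_const).max continuous_const).pow 2)
  have i12 := i1.fadd i2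
  have i34 := i3.fadd i4
  have i56 := i5.fadd i6
  have key := integral_mono (S.integrable (f := fun x => A.errSum x ^ 2) (A.continuous_errSum.pow 2))
    (((i12.fadd i34).fadd (i56.fadd i7)).const_mul 7) fun x => ?_
  · rw [integral_const_mul, integral_add (i12.fadd i34) (i56.fadd i7), integral_add i12 i34,
      integral_add i56 i7, integral_add i1 i2, integral_add i3 i4, integral_add i5 i6] at key
    have r1 := A.res_sq
    have r2 : ∫ x, A.symm.res x ^ 2 ∂S.vol ≤ A.ε := A.symm.res_sq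
    linarith [h.below₁, h.below₂, h.excess₁, h.excess₂, h.phi, h.accuracy]
  · unfold Approx.errSum
    have hs := sq_sum_le_card_mul_sum_sq (s := Finset.univ)
      (f := ![A.below x, A.symm.below x, A.excess x, A.symm.excess x, |A.res x|, |A.symm.res x|,
        max (A.phi x - capLevel) 0])
    simp [Fin.sum_univ_seven, sq_abs] at hs
    simp only [ge_iff_le]
    refine le_trans (le_of_eq ?_) (hs.trans (le_of_eq ?_)) <;> ring

omit [CompactSpace X] [BorelSpace X] in
/-- The weight of the slope of the multiplier. -/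
lemma pen_test {h : ℝ → ℝ} (hp : A.Pen h) (s : ℝ) (hs : 0 < s) :
    ContDiff ℝ ∞ (fun t => stepUp s t * h t) ∧ (∀ t, 0 ≤ deriv (fun t => stepUp s t * h t) t) ∧
      ∀ t, stepUp s t * h t ∈ Set.Icc 0 (capLevel + 3) := by
  refine ⟨(contDiff_stepUp s).mul hp.smooth, fun t => ?_, fun t => ?_⟩
  · rw [(((contDiff_stepUp s).differentiable (by simp) t).hasDerivAt.fun_mul
      (hp.smooth.differentiable (by simp) t).hasDerivAt).deriv]
    exact add_nonneg (mul_nonneg (deriv_stepUp_nonneg hs _) (hp.mem t).1)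
      (mul_nonneg (stepUp_mem s t).1 (hp.mono t))
  · obtain ⟨m0, m1⟩ := hp.mem t
    exact ⟨mul_nonneg (stepUp_mem s t).1 m0,
      (mul_le_of_le_one_left m0 (stepUp_mem s t).2).trans m1⟩

lemma integrable_layerPart (s : ℝ) : Integrable (A.layerPart s) S.vol :=
  (S.integrable (S.continuous_ip A.smooth_level A.smooth_level)).indicator
    (isOpen_lt A.continuous_level.abs continuous_const).measurableSet

end Approx

namespace Cert

variable {G : ℝ → ℝ → ℝ} {κ : ℝ} (C : Cert G κ (capLevel + 3))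

/-- A bound for the cut coefficients on the relevant box. -/
lemma box_bound (M : ℝ) {Φ : (Fin 5 → ℝ) → ℝ} (hΦ : ContDiff ℝ ∞ Φ) : ∃ BM : ℝ, 0 ≤ BM ∧
    ∀ (u v : ℝ) (a b : Fin 4 → ℝ),
      u ∈ Set.Icc (-1 : ℝ) 3 → v ∈ Set.Icc (-1 : ℝ) 3 → a ⬝ᵥ a + b ⬝ᵥ b ≤ 2 * M →
      (∀ i, |cutMul M (C.P i) (pt u v a b)| ≤ BM) ∧ ∀ j, |part (cutMul M Φ) j (pt u v a b)| ≤ BM := by
  let F : (Fin 5 → ℝ) → ℝ := fun y =>
    (∑ i, |cutMul M (C.P i) y|) + ∑ j, |part (cutMul M Φ) j y|
  have hF : Continuous F :=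
    (continuous_finsetSum _ fun i _ => (contDiff_cutMul M (C.smooth_P i)).continuous.abs).add
      (continuous_finsetSum _ fun j _ => (continuous_part (contDiff_cutMul M hΦ) j).abs)
  have hK : IsCompact {y : Fin 5 → ℝ | ∀ i, y i ∈ Set.Icc (-(2 * |M| + 3)) (2 * |M| + 3)} :=
    isCompact_pi_infinite fun _ => isCompact_Icc
  obtain ⟨c, hc⟩ := hK.exists_bound_of_continuousOn hF.continuousOn
  refine ⟨max c 0, le_max_right _ _, fun u v a b hu hv hR => ?_⟩
  have hm : pt u v a b ∈ {y : Fin 5 → ℝ | ∀ i, y i ∈ Set.Icc (-(2 * |M| + 3)) (2 * |M| + 3)} := by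
    have ha := dot_self_nonneg a
    have hb := dot_self_nonneg b
    have hab := abs_le.1 (abs_dot_le a b)
    have := le_abs_self M
    intro i
    fin_cases i <;> simp [pt] <;> constructor <;>
      linarith [hu.1, hu.2, hv.1, hv.2, abs_nonneg M]
  have h := ((Real.norm_eq_abs _).symm.trans_le (hc _ hm)).trans (le_max_left c 0)
  have h' : F (pt u v a b) ≤ max c 0 := (le_abs_self _).trans h
  have n1 : 0 ≤ ∑ i, |cutMul M (C.P i) (pt u v a b)| := Finset.sum_nonneg fun i _ => abs_nonneg _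
  have n2 : 0 ≤ ∑ j, |part (cutMul M Φ) j (pt u v a b)| :=
    Finset.sum_nonneg fun i _ => abs_nonneg _
  simp only [F] at h'
  exact ⟨fun i => (Finset.single_le_sum (f := fun i => |cutMul M (C.P i) (pt u v a b)|)
      (fun i _ => abs_nonneg _) (Finset.mem_univ i)).trans (by linarith),
    fun j => (Finset.single_le_sum (f := fun j => |part (cutMul M Φ) j (pt u v a b)|)
      (fun i _ => abs_nonneg _) (Finset.mem_univ j)).trans (by linarith)⟩

/-- The flux of the weight is negligible. -/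
lemma weight_flux {M ε δ₀ : ℝ} (hM0 : 0 < M) (hε : 0 < ε) (hδ₀ : 0 < δ₀) :
    ∃ C₂ : ℝ, 0 ≤ C₂ ∧ ∀ (A : Approx S) (x : X) (s : ℝ), s ≤ δ₀ →
      (s ≤ A.level x → 1 ≤ A.errSum x ^ 2) →
      -(deriv (stepDown δ₀) (A.level x) * A.fluxAt (fun i => cutMul M (C.P i)) x) ≤
        ε * A.size₂ x + C₂ * A.errSum x ^ 2 := by
  obtain ⟨c₀, hc₀, hc, hz⟩ := exists_step_bound
  obtain ⟨BM, hBM0, hbox⟩ := C.box_bound M C.smooth_k
  set a₁ := c₀ / δ₀ * (60 * BM * M) + 1 with ha₁
  have ha₁0 : 0 < a₁ := by positivity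
  set C₂ := c₀ / δ₀ * (6 * BM) * (968 * M / (ε / a₁)) with hC₂
  have hC₂0 : 0 ≤ C₂ := by positivity
  refine ⟨C₂, hC₂0, fun A x s hsδ hphi => ?_⟩
  have hN := A.one_le_size₂ x
  have hjet : A.jetPt x 2 + A.jetPt x 3 = A.energyDensity x := rfl
  have hsmall := fun h => hbox (A.f x) (A.g x) (S.grad A.f x) (S.grad A.g x) (A.band₃ x).1 (A.band₃ x).2 h
  obtain ⟨d1, d2⟩ := deriv_stepDown hδ₀ hc hz (A.level x)
  rcases lt_or_ge (A.level x) δ₀ with h | h
  · rw [d2 h, zero_mul, neg_zero]; positivity [hN, show 0 ≤ A.size₂ x by linarith]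
  have hl : 0 < ε / a₁ := div_pos hε ha₁0
  have h1 := A.fluxAt_le (P := fun i => cutMul M (C.P i)) (x := x) (B := BM) hl hM0
    (fun h i => ((cutMul_eq hM0 (C.smooth_P i) (A.jetPt x)).2 (hjet ▸ h)).1) (fun i => by
      rcases le_or_gt (A.energyDensity x) (2 * M) with h | h
      · exact (hsmall h).1 i
      · rw [((cutMul_eq hM0 (C.smooth_P i) (A.jetPt x)).2 (hjet ▸ h.le)).1, abs_zero]
        exact hBM0)
  refine (neg_le_abs _).trans ?_
  rw [abs_mul]
  refine (mul_le_mul d1 h1 (abs_nonneg _) (by positivity)).trans ?_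
  have h2 : c₀ / δ₀ * (60 * BM * M) * (ε / a₁) ≤ ε := by
    rw [mul_div_assoc', div_le_iff₀ ha₁0, ha₁]
    linarith [mul_nonneg hε.le (show 0 ≤ c₀ / δ₀ * (60 * BM * M) by positivity)]
  have h3 := mul_le_mul_of_nonneg_right h2 (show 0 ≤ A.size₂ x by linarith)
  have h4 := le_mul_of_one_le_right hC₂0 (hphi (by linarith))
  rw [hC₂] at h4 ⊢
  linarith

include C in
/-- The flux of a test is negligible: a nondecreasing weight in the constraint, bounded by `W` and
zero below `-s`, times a coefficient nonnegative on the band. -/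
lemma test_flux {M ε : ℝ} (hM0 : 0 < M) (hε : 0 < ε) {Φ : (Fin 5 → ℝ) → ℝ} (hΦ : ContDiff ℝ ∞ Φ)
    (hΦ0 : ∀ (u v : ℝ) (a b : Fin 4 → ℝ),
      u ∈ Set.Icc (-1 : ℝ) 3 → v ∈ Set.Icc (-1 : ℝ) 3 → 0 ≤ Φ (pt u v a b)) {W : ℝ} (hW : 0 ≤ W) :
    ∃ C₃ : ℝ, 0 ≤ C₃ ∧ ∀ (A : Approx S) (x : X) (s : ℝ) (wt : ℝ → ℝ), 0 < s → ContDiff ℝ ∞ wt →
      (∀ t, 0 ≤ deriv wt t) → (∀ t, wt t ∈ Set.Icc 0 W) → (∀ t ≤ -s, wt t = 0) →
      (s ≤ A.level x → 1 ≤ A.errSum x ^ 2) →
      -(S.ip (fun y => wt (A.level y) * cutMul M Φ (A.jetPt y)) A.level x) ≤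
        ε * A.size₂ x + C₃ * (A.errSum x ^ 2 + A.layerPart s x) := by
  obtain ⟨BM, hBM0, hbox⟩ := C.box_bound M hΦ
  set ε₁ := ε / (W + 1) with hε₁
  have hε₁0 : 0 < ε₁ := div_pos hε (by linarith)
  set a₂ := 20 * BM * M + 1 with ha₂
  have ha₂0 : 0 < a₂ := by positivity
  set C₃ := 5 * BM / 2 / (ε₁ / a₂) * (1 + 1936 * M) with hC₃
  have hC₃0 : 0 ≤ C₃ := by positivity
  refine ⟨W * C₃, mul_nonneg hW hC₃0, fun A x s wt hs hwt hwt' hwtW hwt0 hphi => ?_⟩
  have hkc := contDiff_cutMul M hΦ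
  have hu := S.smooth_comp₁ A.smooth_level hwt
  have hv := A.smooth_coef hkc
  have hN := A.one_le_size₂ x
  have hlay := A.layerPart_nonneg s x
  have herr := sq_nonneg (A.errSum x)
  have hjet : A.jetPt x 2 + A.jetPt x 3 = A.energyDensity x := rfl
  have hsmall := fun h => hbox (A.f x) (A.g x) (S.grad A.f x) (S.grad A.g x) (A.band₃ x).1 (A.band₃ x).2 h
  have hI : S.ip (fun y => wt (A.level y) * cutMul M Φ (A.jetPt y)) A.level x =
      deriv wt (A.level x) * cutMul M Φ (A.jetPt x) * S.ip A.level A.level x + wt (A.level x) *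
      (S.grad (fun y => cutMul M Φ (A.jetPt y)) x ⬝ᵥ S.grad A.level x) := by
    simp only [ScalarGeom.ip]
    rw [S.grad_mul hu hv, S.grad_comp₁ A.smooth_level hwt, add_dotProduct,
      smul_dotProduct, smul_dotProduct, smul_dotProduct]
    simp only [smul_eq_mul]
    ring
  have hk0 : 0 ≤ cutMul M Φ (A.jetPt x) := mul_nonneg (Real.smoothTransition.nonneg _)
    (hΦ0 _ _ _ _ (A.band₃ x).1 (A.band₃ x).2)
  have hpos : 0 ≤ ε₁ * A.size₂ x + C₃ * (A.errSum x ^ 2 + A.layerPart s x) := by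
    positivity [show 0 ≤ A.size₂ x by linarith]
  have h0 : 0 ≤ deriv wt (A.level x) * cutMul M Φ (A.jetPt x) * S.ip A.level A.level x :=
    mul_nonneg (mul_nonneg (hwt' _) hk0) (S.ip_self_nonneg _ _)
  have hWε : W * ε₁ ≤ ε := by
    rw [hε₁, mul_div_assoc', div_le_iff₀ (by linarith)]
    linarith
  rcases le_or_gt (A.level x) (-s) with h | h
  · rw [hI, hwt0 _ h, zero_mul, add_zero]
    linarith [mul_nonneg hε.le (show 0 ≤ A.size₂ x by linarith),
      mul_nonneg (mul_nonneg hW hC₃0) (add_nonneg herr hlay)]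
  have hl : 0 < ε₁ / a₂ := div_pos hε₁0 ha₂0
  suffices hh : |S.grad (fun y => cutMul M Φ (A.jetPt y)) x ⬝ᵥ S.grad A.level x| ≤
      ε₁ * A.size₂ x + C₃ * (A.errSum x ^ 2 + A.layerPart s x) by
    have h7 := mul_le_mul ((abs_of_nonneg (hwtW (A.level x)).1).trans_le (hwtW (A.level x)).2) hh
      (abs_nonneg _) hW
    rw [← abs_mul, mul_add] at h7
    have h8 := mul_le_mul_of_nonneg_right hWε (show 0 ≤ A.size₂ x by linarith)
    rw [hI]
    linarith [(abs_le.1 h7).1]
  rcases le_or_gt (2 * M) (A.energyDensity x) with hR | hR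
  · refine (A.coef_flux_le hkc (B := 0) hl hM0 ?_ ?_).trans ?_
    · exact fun h j => ((cutMul_eq hM0 hΦ (A.jetPt x)).2 (hjet ▸ h)).2 j
    · exact fun j => (abs_eq_zero.2 (((cutMul_eq hM0 hΦ (A.jetPt x)).2
        (hjet ▸ hR)).2 j)).le
    · simpa using hpos
  · refine (A.coef_flux_le hkc hl hM0 (fun h => absurd h (not_le.2 hR)) (hsmall hR.le).2).trans ?_
    have h2 : 20 * BM * M * (ε₁ / a₂) ≤ ε₁ := by
      rw [mul_div_assoc', div_le_iff₀ ha₂0, ha₂]
      linarith [mul_nonneg hε₁0.le (show 0 ≤ 20 * BM * M by positivity)]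
    have h3 := mul_le_mul_of_nonneg_right h2 (show 0 ≤ A.size₂ x by linarith)
    have h4 : S.ip A.level A.level x ≤ (1 + 1936 * M) * (A.errSum x ^ 2 + A.layerPart s x) := by
      have hnn := mul_nonneg hM0.le (add_nonneg herr hlay)
      by_cases h5 : |A.level x| < s
      · rw [Approx.layerPart, Set.indicator_of_mem (show x ∈ {y | |A.level y| < s} from h5)] at hnn ⊢
        linarith
      · have h6 : s ≤ A.level x := by
          rcases le_abs.1 (not_lt.1 h5) with h6 | h6
          · exact h6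
          · linarith
        have h7 := mul_le_mul_of_nonneg_left (hphi h6) hM0.le
        linarith [A.ip_level_le x, mul_nonneg hM0.le hlay]
    have h5 := mul_le_mul_of_nonneg_left h4 (show 0 ≤ 5 * BM / 2 / (ε₁ / a₂) by positivity)
    rw [← mul_assoc, ← hC₃] at h5
    have e : 5 * BM / 2 * (S.ip A.level A.level x / (ε₁ / a₂)) =
        5 * BM / 2 / (ε₁ / a₂) * S.ip A.level A.level x := by ring
    linarith

/-- The pointwise inequality with two free parameters. -/
theorem point_le (hG : Continuous fun z : ℝ × ℝ => G z.1 z.2) (hκ : 0 ≤ κ) :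
    ∃ (q : ℕ) (Kt : ℝ), 0 ≤ Kt ∧ ∀ M ε : ℝ, 2 ≤ M → 0 < ε →
      ∃ δk δ₀ d₀ Cs B₃ : ℝ, 0 < δk ∧ 0 < δ₀ ∧ 0 < d₀ ∧ d₀ ≤ 1 ∧ 0 ≤ Cs ∧ 0 ≤ B₃ ∧
      ∀ (A : Approx S) (h : ℝ → ℝ) (s : ℝ), A.Pen h → 0 < s → s < d₀ →
        A.ε ≤ s / 4 →
        A.β * A.ε ≤ d₀ → 2 * (capLevel + 1) ≤ A.β * s → ∀ x,
          G (A.f x) (A.g x) ≤ κ +
            (stepDown δ₀ (A.level x) * A.divAt (fun i => cutMul M (C.P i)) x +
              deriv (stepDown δ₀) (A.level x) * A.fluxAt (fun i => cutMul M (C.P i)) x) +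
            stepUp s (A.level x) * cutMul M (C.kS δk) (A.jetPt x) * S.lap A.level x +
            S.ip (fun y => stepUp s (A.level y) * cutMul M (C.kS δk) (A.jetPt y)) A.level x +
            (stepUp s (A.level x) * h (A.level x) * cutMul M (C.k₁S δk) (A.jetPt x) * S.lap A.level x +
            S.ip (fun y => stepUp s (A.level y) * h (A.level y) * cutMul M (C.k₁S δk) (A.jetPt y)) A.level x) +
            4 * ε * A.size₂ x +
            Kt / M * (A.energyDensity x +
              (weight (q + 2) (4 * M) (A.energyDensity x) * A.energyDensity x +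
                weight (q + 2) (4 * M) (A.energyDensity x) * A.hessDensity x)) +
            Cs * (A.errSum x ^ 2 + A.layerPart s x) + B₃ * A.lapErr x ^ 2 := by
  have hW : (0 : ℝ) ≤ capLevel + 3 := by linarith [capLevel_nonneg]
  obtain ⟨q, Kt, hKt, htail⟩ := C.tail_le (S := S) hG hκ hW
  refine ⟨q, Kt, hKt, fun M ε hM hε => ?_⟩
  have hM0 : 0 < M := by linarith
  obtain ⟨δk, δ₀, d₀, B₃, hk0, hk1, hδ₀, hd₀, hdδ, hδ1, hB₃, hnear⟩ := C.near_le (S := S) hG hκ M hε
  obtain ⟨hsk, hsk₁⟩ := C.contDiff_kS hk0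
  obtain ⟨C₂, hC₂0, hwf⟩ := C.weight_flux (S := S) hM0 hε hδ₀
  obtain ⟨C₃, hC₃0, htf⟩ := C.test_flux (S := S) hM0 hε hsk
    (fun u v a b _ _ => (C.kS_nonneg hk0.le _).1) zero_le_one
  obtain ⟨C₄, hC₄0, htf'⟩ := C.test_flux (S := S) hM0 hε hsk₁
    (fun u v a b _ _ => (C.kS_nonneg hk0.le _).2) hW
  refine ⟨δk, δ₀, d₀, B₃ + C₂ + C₃ + C₄, B₃, hk0, hδ₀, hd₀, hdδ.trans hδ1, by positivity, hB₃,
    fun A hf s hpen hs hsd hεs hβε hβs x => ?_⟩
  have hN := A.one_le_size₂ x
  have hR0 := A.energyDensity_nonneg x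
  have hjet : A.jetPt x 2 + A.jetPt x 3 = A.energyDensity x := rfl
  have hlay := A.layerPart_nonneg s x
  have herr := sq_nonneg (A.errSum x)
  have hphi : s ≤ A.level x → 1 ≤ A.errSum x ^ 2 := fun h => by
    have h5 := (A.phi_sides (by linarith) hεs hβs x).2 h
    have := A.errSum_bounds x
    have := A.symm.errSum_bounds x
    have h6 : 1 ≤ A.errSum x := by
      unfold Approx.errSum
      linarith [abs_nonneg (A.res x), abs_nonneg (A.symm.res x)]
    exact one_le_pow₀ h6
  have f1 := hwf A x s (hsd.le.trans hdδ) hphi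
  have f2 := htf A x s (stepUp s) hs (contDiff_stepUp s) (deriv_stepUp_nonneg hs) (stepUp_mem s)
    (fun t => (stepUp_sides hs).1) hphi
  have hwu := stepUp_mem s (A.level x)
  obtain ⟨hwt, hwt', hwtW⟩ := A.pen_test hpen s hs
  have f3 := htf' A x s (fun t => stepUp s t * hf t) hs hwt hwt' hwtW
    (fun t ht => by rw [(stepUp_sides hs).1 ht, zero_mul]) hphi
  have hwd : stepDown δ₀ (A.level x) ∈ Set.Icc (0 : ℝ) 1 :=
    ⟨Real.smoothTransition.nonneg _, Real.smoothTransition.le_one _⟩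
  set U := weight (q + 2) (4 * M) (A.energyDensity x) * A.energyDensity x +
    weight (q + 2) (4 * M) (A.energyDensity x) * A.hessDensity x
  have hw : 0 ≤ weight (q + 2) (4 * M) (A.energyDensity x) := (weight_bounds (by linarith) hR0).1
  have hU : 0 ≤ U := add_nonneg (mul_nonneg hw hR0) (mul_nonneg hw (A.hessDensity_nonneg x))
  have main : G (A.f x) (A.g x) ≤ κ + stepDown δ₀ (A.level x) *
      A.divAt (fun i => cutMul M (C.P i)) x +
      stepUp s (A.level x) * (cutMul M (C.kS δk) (A.jetPt x) * S.lap A.level x) +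
      stepUp s (A.level x) * hf (A.level x) * (cutMul M (C.k₁S δk) (A.jetPt x) * S.lap A.level x) +
      ε * A.size₂ x +
      Kt / M * (A.energyDensity x + U) +
      B₃ * (A.errSum x ^ 2 + A.layerPart s x + A.lapErr x ^ 2) := by
    have hz1 : 0 ≤ Kt / M * (A.energyDensity x + U) := by positivity
    have hz2 : 0 ≤ B₃ * (A.errSum x ^ 2 + A.layerPart s x + A.lapErr x ^ 2) := by positivity
    have hz3 : 0 ≤ ε * A.size₂ x := mul_nonneg hε.le (by linarith)
    rcases le_or_gt (A.energyDensity x) (M / 2) with h | h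
    · have e := fun i => (cutMul_eq hM0 (C.smooth_P i) (A.jetPt x)).1 (hjet ▸ h)
      have ek := ((cutMul_eq hM0 hsk (A.jetPt x)).1 (hjet ▸ h)).1
      have ek₁ := ((cutMul_eq hM0 hsk₁ (A.jetPt x)).1 (hjet ▸ h)).1
      have ed : A.divAt (fun i => cutMul M (C.P i)) x = A.divAt C.P x := by
        simp only [Approx.jetPt] at e
        simp only [Approx.divAt, divJet, divTerm, diffJet, e]
      rw [ed, ek, ek₁]
      have key := hnear A hf x s hpen hs hsd hεs
        hβε
        hβs (by linarith)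
      linarith
    · have key := htail A x M _ _ _ δk hM hk0 hk1 hwd hwu (hwtW (A.level x)) h
      linarith
  linarith [mul_nonneg hC₂0 hlay, mul_nonneg hC₃0 hlay, mul_nonneg hC₄0 hlay,
    mul_nonneg hε.le (show 0 ≤ A.size₂ x by linarith)]

include C in
/-- One certificate bounds the integral of `G` by its loss. -/
theorem integral_le (hG : Continuous fun z : ℝ × ℝ => G z.1 z.2) (hκ : 0 ≤ κ) :
    ∀ δ > 0, ∀ β₀ : ℝ, ∃ β : ℝ, β₀ ≤ β ∧ 12000 ≤ β ∧ ∃ ν₀ > 0, ∀ A : Approx S,
      A.β = β → A.Small ν₀ →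
        ∫ x, G (A.f x) (A.g x) ∂S.vol ≤ κ * S.vol.real Set.univ + δ := by
  intro δ hδ β₀
  set V := S.vol.real Set.univ
  have hV : 0 ≤ V := measureReal_nonneg
  have hcap0 := capLevel_nonneg
  obtain ⟨q, Kt, hKt, hpoint⟩ := C.point_le (S := S) hG hκ
  obtain ⟨Q₀, hQ₀⟩ := Approx.moments (S := S) 0 (C := 46 + 7 * capLevel) (by linarith)
  obtain ⟨Qp, hQp⟩ := Approx.moments (S := S) (q + 2) (C := 46 + 7 * capLevel) (by linarith)
  -- the gradient level
  set E₁ := 294 * V + 8 + |Qp| * (V + 1) with hE₁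
  have hE₁0 : 0 ≤ E₁ := by positivity
  set M := 2 + 5 * Kt * E₁ / δ with hMdef
  have hM : 2 ≤ M := le_add_of_nonneg_right (by positivity)
  have hM0 : 0 < M := by linarith
  have hMδ : Kt / M * E₁ ≤ δ / 5 := by
    rw [div_mul_eq_mul_div, div_le_iff₀ hM0]
    have : δ * M = 2 * δ + 5 * Kt * E₁ := by rw [hMdef]; field_simp
    linarith
  -- the slack
  set N₁ := V + |Q₀| * (V + 1) with hN₁
  have hN₁0 : 0 ≤ N₁ := by positivity
  set ε := δ / (20 * (N₁ + 1)) with hεdef
  have hε : 0 < ε := by positivity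
  have hεN : 4 * ε * N₁ ≤ δ / 5 := by
    rw [hεdef, mul_div_assoc', div_mul_eq_mul_div, div_le_iff₀ (by positivity)]
    nlinarith
  obtain ⟨δk, δ₀, d₀, Cs, B₃, hδk, hδ₀, hd₀, hd1, hCs0, hB₃, hpt⟩ := hpoint M ε hM hε
  obtain ⟨hsk, hsk₁⟩ := C.contDiff_kS hδk
  set E₂ := 4 * (2200 * V + 600) with hE₂
  have hE₂0 : 0 < E₂ := by positivity
  set s := min (d₀ / 2) (δ / (5 * (Cs + 1) * E₂)) with hsdef
  have hs : 0 < s := lt_min (half_pos hd₀) (by positivity)
  have hsd : s < d₀ := (min_le_left _ _).trans_lt (half_lt_self hd₀)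
  have hs1 : s ≤ 1 := by linarith
  have hsδ : Cs * (s * E₂) ≤ δ / 5 := by
    have h1 : s ≤ δ / (5 * (Cs + 1) * E₂) := min_le_right _ _
    rw [le_div_iff₀ (by positivity)] at h1
    linarith [mul_nonneg hs.le hE₂0.le]
  set β := max (max β₀ 12000) (2 * (capLevel + 1) / s) with hβdef
  have hβ7 : 12000 ≤ β := (le_max_right _ _).trans (le_max_left _ _)
  have hβs : 2 * (capLevel + 1) ≤ β * s := by
    rw [← div_le_iff₀ hs]; exact le_max_right _ _
  refine ⟨β, (le_max_left _ _).trans (le_max_left _ _), hβ7, ?_⟩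
  set ν₀ := min (min 1 (1 / (4 * M) ^ (q + 2)))
    (min (min (s / 4) (d₀ / β)) (δ / (5 * (49 * Cs + B₃ + 1)))) with hν
  have hν0 : 0 < ν₀ := by
    refine lt_min (lt_min one_pos (by positivity)) (lt_min (lt_min (by positivity) ?_) (by positivity))
    exact div_pos hd₀ (by linarith)
  have hν1 : ν₀ ≤ 1 := (min_le_left _ _).trans (min_le_left _ _)
  have hν2 : (4 * M) ^ (q + 2) * ν₀ ≤ 1 := by
    rw [mul_comm, ← le_div_iff₀ (by positivity)]
    exact (min_le_left _ _).trans (min_le_right _ _)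
  have hν3 : ν₀ ≤ s / 4 := (min_le_right _ _).trans ((min_le_left _ _).trans (min_le_left _ _))
  have hν4 : β * ν₀ ≤ d₀ := by
    rw [mul_comm, ← le_div_iff₀ (by linarith)]
    exact (min_le_right _ _).trans ((min_le_left _ _).trans (min_le_right _ _))
  have hν5 : (49 * Cs + B₃) * ν₀ ≤ δ / 5 := by
    have h1 : ν₀ ≤ δ / (5 * (49 * Cs + B₃ + 1)) := (min_le_right _ _).trans (min_le_right _ _)
    rw [le_div_iff₀ (by positivity)] at h1
    linarith
  refine ⟨ν₀, hν0, fun A hβA hA => ?_⟩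
  -- the weighted fields and the test of the constraint
  obtain ⟨hWc, hW⟩ := A.integral_weighted (contDiff_stepDown δ₀)
    (P := fun i => cutMul M (C.P i)) fun i => contDiff_cutMul M (C.smooth_P i)
  have hkc := contDiff_cutMul M hsk
  have hu := S.smooth_comp₁ A.smooth_level (contDiff_stepUp s)
  have hv := A.smooth_coef hkc
  have hvu : S.Smooth fun y => stepUp s (A.level y) * cutMul M (C.kS δk) (A.jetPt y) := S.smooth_mul hu hv
  have hT := S.integral_mul_lap A.smooth_level hvu
  obtain ⟨hf, hpen⟩ := A.exists_pen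
  have hvu' : S.Smooth fun y => stepUp s (A.level y) * hf (A.level y) * cutMul M (C.k₁S δk) (A.jetPt y) :=
    S.smooth_mul (S.smooth_comp₁ A.smooth_level (A.pen_test hpen s hs).1)
      (A.smooth_coef (contDiff_cutMul M hsk₁))
  set T₁ := fun x => stepUp s (A.level x) * hf (A.level x) * cutMul M (C.k₁S δk) (A.jetPt x) *
    S.lap A.level x
  set I₁ := fun x =>
    S.ip (fun y => stepUp s (A.level y) * hf (A.level y) * cutMul M (C.k₁S δk) (A.jetPt y)) A.level x
  have hT₁ : ∫ x, T₁ x ∂S.vol = -∫ x, I₁ x ∂S.vol := S.integral_mul_lap A.smooth_level hvu'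
  have iT₁ : Integrable T₁ S.vol :=
    S.integrable ((S.continuous_of_smooth hvu').mul (S.continuous_lap A.smooth_level))
  have iI₁ : Integrable I₁ S.vol := S.integrable (S.continuous_ip hvu' A.smooth_level)
  set W := fun x => stepDown δ₀ (A.level x) * A.divAt (fun i => cutMul M (C.P i)) x +
    deriv (stepDown δ₀) (A.level x) * A.fluxAt (fun i => cutMul M (C.P i)) x
  set T := fun x => stepUp s (A.level x) * cutMul M (C.kS δk) (A.jetPt x) * S.lap A.level x
  set I := fun x => S.ip (fun y => stepUp s (A.level y) * cutMul M (C.kS δk) (A.jetPt y)) A.level x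
  set U := fun x => weight (q + 2) (4 * M) (A.energyDensity x) * A.energyDensity x +
    weight (q + 2) (4 * M) (A.energyDensity x) * A.hessDensity x
  have point : ∀ x, G (A.f x) (A.g x) ≤ κ + W x + T x + I x + (T₁ x + I₁ x) +
      4 * ε * A.size₂ x + Kt / M * (A.energyDensity x + U x) +
      Cs * (A.errSum x ^ 2 + A.layerPart s x) + B₃ * A.lapErr x ^ 2 :=
    hpt A hf s hpen hs hsd (hA.accuracy.trans hν3)
      (by rw [hβA]; exact (mul_le_mul_of_nonneg_left hA.accuracy (by linarith)).trans hν4)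
      (by rw [hβA]; exact hβs)
  -- integration
  have cG : Continuous fun x => G (A.f x) (A.g x) := hG.comp (A.continuous_f.prodMk A.continuous_g)
  have cT : Continuous T :=
    (S.continuous_of_smooth hvu).mul (S.continuous_lap A.smooth_level)
  have cw : Continuous fun x => weight (q + 2) (4 * M) (A.energyDensity x) :=
    (contDiff_weight _ _).continuous.comp A.continuous_energyDensity
  have iW : Integrable W S.vol := S.integrable hWc
  have iT : Integrable T S.vol := S.integrable cT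
  have iI : Integrable I S.vol := S.integrable (S.continuous_ip hvu A.smooth_level)
  have iN : Integrable A.size₂ S.vol := S.integrable A.continuous_size₂
  have iR : Integrable A.energyDensity S.vol := S.integrable A.continuous_energyDensity
  have iU₁ : Integrable (fun x => weight (q + 2) (4 * M) (A.energyDensity x) * A.energyDensity x) S.vol :=
    S.integrable (cw.mul A.continuous_energyDensity)
  have iU₂ : Integrable (fun x => weight (q + 2) (4 * M) (A.energyDensity x) * A.hessDensity x) S.vol :=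
    S.integrable (cw.mul A.continuous_hessDensity)
  have iU : Integrable U S.vol := iU₁.fadd iU₂
  have iE : Integrable (fun x => A.errSum x ^ 2) S.vol := S.integrable (A.continuous_errSum.pow 2)
  have iL := A.integrable_layerPart s
  have iLe : Integrable (fun x => A.lapErr x ^ 2) S.vol := S.integrable (A.continuous_lapErr.pow 2)
  have i1 : Integrable (fun _ : X => κ) S.vol := integrable_const κ
  have i12 := i1.fadd iW
  have i123 := i12.fadd iT
  have i1234 := i123.fadd iI
  have i5 := iN.const_mul (4 * ε)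
  have i1234' := i1234.fadd (iT₁.fadd iI₁)
  have i15 := i1234'.fadd i5
  have i6 := (iR.fadd iU).const_mul (Kt / M)
  have i16 := i15.fadd i6
  have i7 := (iE.fadd iL).const_mul Cs
  have i17 := i16.fadd i7
  have i8 := iLe.const_mul B₃
  have key := integral_mono (S.integrable cG) (i17.fadd i8) point
  rw [integral_add i17 i8, integral_add i16 i7, integral_add i15 i6, integral_add i1234' i5,
    integral_add i1234 (iT₁.fadd iI₁), integral_add iT₁ iI₁, integral_add i123 iI, integral_add i12 iT, integral_add i1 iW, integral_const,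
    integral_const_mul, integral_const_mul, integral_const_mul, integral_const_mul,
    integral_add iR iU, integral_add iE iL, smul_eq_mul] at key
  -- the moments
  have hlap : ∀ x, |S.lap A.f x| ≤ (46 + 7 * capLevel) + A.lapErr x ∧
      |S.lap A.g x| ≤ (46 + 7 * capLevel) + A.lapErr x := A.abs_laps_le_lapErr
  have hσ : 0 ≤ ∫ x, A.lapErr x ^ 2 ∂S.vol := integral_nonneg fun x => sq_nonneg _
  have hN : ∫ x, A.size₂ x ∂S.vol ≤ N₁ := by
    have h0 := hQ₀ A 1 one_pos A.lapErr A.continuous_lapErr hlap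
    simp only [weight, pow_zero, one_mul] at h0
    rw [funext A.size₂_eq, integral_add (integrable_const 1) (S.integrable A.continuous_hessDensity),
      integral_const, smul_eq_mul, mul_one]
    have h1 : Q₀ * (V + ∫ x, A.lapErr x ^ 2 ∂S.vol) ≤ |Q₀| * (V + 1) :=
      (mul_le_mul_of_nonneg_right (le_abs_self _) (by positivity)).trans
        (mul_le_mul_of_nonneg_left (by linarith [hA.lapErr]) (abs_nonneg _))
    have h2 : 0 ≤ ∫ x, A.energyDensity x ∂S.vol := integral_nonneg A.energyDensity_nonneg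
    linarith
  have hU : (∫ x, A.energyDensity x ∂S.vol) + ∫ x, U x ∂S.vol ≤ E₁ := by
    have h0 := hQp A (4 * M) (by positivity) A.lapErr A.continuous_lapErr hlap
    have h1 : Qp * (V + (4 * M) ^ (q + 2) * ∫ x, A.lapErr x ^ 2 ∂S.vol) ≤ |Qp| * (V + 1) :=
      (mul_le_mul_of_nonneg_right (le_abs_self _) (by positivity)).trans
        (mul_le_mul_of_nonneg_left (by
          linarith [(mul_le_mul_of_nonneg_left hA.lapErr (by positivity : 0 ≤ (4 * M) ^ (q + 2))).trans hν2])
          (abs_nonneg _))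
    have e : ∫ x, U x ∂S.vol =
        (∫ x, weight (q + 2) (4 * M) (A.energyDensity x) * A.energyDensity x ∂S.vol) +
          ∫ x, weight (q + 2) (4 * M) (A.energyDensity x) * A.hessDensity x ∂S.vol :=
      integral_add iU₁ iU₂
    rw [e, hE₁]
    linarith [hA.energy]
  have hE : (∫ x, A.errSum x ^ 2 ∂S.vol) + ∫ x, A.layerPart s x ∂S.vol ≤ 49 * ν₀ + s * E₂ := by
    have h1 := A.integral_errSum_sq hA
    have h2 := hA.layer s hs
    rw [hE₂]
    simp only [Approx.layerPart]
    linarith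
  have k1 := mul_le_mul_of_nonneg_left hN (show 0 ≤ 4 * ε by linarith)
  have k2 := mul_le_mul_of_nonneg_left hU (show 0 ≤ Kt / M by positivity)
  have k3 := mul_le_mul_of_nonneg_left hE hCs0
  have k4 := mul_le_mul_of_nonneg_left hA.lapErr hB₃
  have kT : ∫ x, T x ∂S.vol = -∫ x, I x ∂S.vol := hT
  have kW : ∫ x, W x ∂S.vol = 0 := hW
  linarith

end Cert

/-- A family of certificates whose losses tend to zero gives the passage form. -/
theorem gate_of_cert {G : ℝ → ℝ → ℝ} (hG : Continuous fun z : ℝ × ℝ => G z.1 z.2)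
    (h : ∀ κ > 0, Nonempty (Cert G κ (capLevel + 3))) : Gate S G := by
  intro δ hδ β₀
  have hV : 0 ≤ S.vol.real Set.univ := measureReal_nonneg
  obtain ⟨C⟩ := h (δ / (2 * (S.vol.real Set.univ + 1))) (by positivity)
  obtain ⟨β, hβ, hβ7, ν₀, hν, hA⟩ :=
    C.integral_le (S := S) hG (by positivity) (δ / 2) (half_pos hδ) β₀
  refine ⟨β, hβ, hβ7, ν₀, hν, fun A a b => (hA A a b).trans ?_⟩
  have : δ / (2 * (S.vol.real Set.univ + 1)) * S.vol.real Set.univ ≤ δ / 2 := by
    rw [div_mul_eq_mul_div, div_le_iff₀ (by positivity)]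
    nlinarith
  linarith

end

end Vale.Agent.P211.Analytic
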